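import Mathlib

-- ▼ part X261/Pole/Lat
section

/-!
# Row 261, package POLE (helper59), file `Lat`: the lattice calculus of depth functionals

`LS M` : abstract energy lattice (`Q` = admissible potentials `≤ 0`, `D = -E`, `P a b s` = envelope
of `min a (b + s)`); `Cons F` : constraint sets; `dp F a` : least energy below `a` under `F`;
`cost v a = D (P v a 0) - D a`.
-/

set_option autoImplicit false

open Set Filter Topology

namespace Crest.Agent.X261.Pole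

noncomputable section

/-- abstract energy lattice -/
structure LS (M : Type*) where
  Q : Set (M → ℝ)
  D : (M → ℝ) → ℝ
  P : (M → ℝ) → (M → ℝ) → ℝ → M → ℝ
  zero_mem : (0 : M → ℝ) ∈ Q
  D_zero : D 0 = 0
  nonpos : ∀ a ∈ Q, a ≤ 0
  anti : ∀ a ∈ Q, ∀ b ∈ Q, a ≤ b → D b ≤ D a
  maxs_mem : ∀ a ∈ Q, ∀ b ∈ Q, ∀ s : ℝ, 0 ≤ s → (b ⊔ fun x => a x - s) ∈ Q
  P_mem : ∀ a ∈ Q, ∀ b ∈ Q, ∀ s : ℝ, 0 ≤ s → P a b s ∈ Q
  P_le : ∀ a ∈ Q, ∀ b ∈ Q, ∀ s : ℝ, 0 ≤ s → P a b s ≤ a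
  P_le' : ∀ a ∈ Q, ∀ b ∈ Q, ∀ s : ℝ, 0 ≤ s → ∀ x, P a b s x ≤ b x + s
  le_P : ∀ a ∈ Q, ∀ b ∈ Q, ∀ s : ℝ, 0 ≤ s → ∀ f ∈ Q, f ≤ a → (∀ x, f x ≤ b x + s) → f ≤ P a b s
  s3 : ∀ a ∈ Q, ∀ b ∈ Q, ∀ s : ℝ, 0 ≤ s →
    D (b ⊔ fun x => a x - s) + D (P a b s) ≤ D a + D b
  cvx : ConvexOn ℝ Q D

namespace LS

variable {M : Type*} (S : LS M)

/-- constraint sets: lower sets, stable under `max`, compatible with every background -/
structure Cons (F : Set (M → ℝ)) : Prop where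
  low : ∀ f ∈ F, ∀ g, g ≤ f → g ∈ F
  sup : ∀ f ∈ F, ∀ g ∈ F, f ⊔ g ∈ F
  ne : ∀ a ∈ S.Q, ∃ f ∈ S.Q, f ≤ a ∧ f ∈ F

/-- least energy below `a` under the constraint `F` -/
def dp (F : Set (M → ℝ)) (a : M → ℝ) : ℝ := sInf (S.D '' {f | f ∈ S.Q ∧ f ≤ a ∧ f ∈ F})

/-- the envelope of `min a b` -/
def mn (a b : M → ℝ) : M → ℝ := S.P a b 0

/-- `cost v a = E a - E (P (min v a))` -/
def cost (v a : M → ℝ) : ℝ := S.D (S.mn v a) - S.D a

/-- truncation at depth `s` -/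
def tr (s : ℝ) (f : M → ℝ) : M → ℝ := f ⊔ fun _ => -s

variable {S} {F F' : Set (M → ℝ)} {a b f g v w : M → ℝ}

theorem D_nonneg (ha : a ∈ S.Q) : 0 ≤ S.D a :=
  S.D_zero ▸ S.anti a ha 0 S.zero_mem (S.nonpos a ha)

theorem sup_mem (ha : a ∈ S.Q) (hb : b ∈ S.Q) : a ⊔ b ∈ S.Q := by
  have := S.maxs_mem b hb a ha 0 le_rfl
  simp only [sub_zero] at this
  exact this

theorem tr_mem (ha : a ∈ S.Q) {s : ℝ} (hs : 0 ≤ s) : tr s a ∈ S.Q := by
  have := S.maxs_mem 0 S.zero_mem a ha s hs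
  simp only [Pi.zero_apply, zero_sub] at this
  exact this


theorem le_tr' (s : ℝ) (f : M → ℝ) (x : M) : -s ≤ tr s f x := le_max_right _ _

theorem tr_le {s : ℝ} (h1 : f ≤ a) (h2 : ∀ x, -s ≤ a x) : tr s f ≤ a :=
  fun x => max_le (h1 x) (h2 x)

theorem mn_mem (ha : a ∈ S.Q) (hb : b ∈ S.Q) : S.mn a b ∈ S.Q := S.P_mem a ha b hb 0 le_rfl

theorem mn_le (ha : a ∈ S.Q) (hb : b ∈ S.Q) : S.mn a b ≤ a := S.P_le a ha b hb 0 le_rfl

theorem mn_le' (ha : a ∈ S.Q) (hb : b ∈ S.Q) : S.mn a b ≤ b := fun x =>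
  (S.P_le' a ha b hb 0 le_rfl x).trans_eq (add_zero _)

theorem le_mn (ha : a ∈ S.Q) (hb : b ∈ S.Q) (hf : f ∈ S.Q) (h1 : f ≤ a) (h2 : f ≤ b) :
    f ≤ S.mn a b := S.le_P a ha b hb 0 le_rfl f hf h1 fun x => by simpa using h2 x

theorem mn_comm (ha : a ∈ S.Q) (hb : b ∈ S.Q) : S.mn a b = S.mn b a :=
  le_antisymm (le_mn hb ha (mn_mem ha hb) (mn_le' ha hb) (mn_le ha hb))
    (le_mn ha hb (mn_mem hb ha) (mn_le' hb ha) (mn_le hb ha))

theorem mn_eq_left (ha : a ∈ S.Q) (hb : b ∈ S.Q) (h : a ≤ b) : S.mn a b = a :=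
  le_antisymm (mn_le ha hb) (le_mn ha hb ha le_rfl h)


theorem le_P_of (ha : a ∈ S.Q) (hb : b ∈ S.Q) {s σ : ℝ} (hs : 0 ≤ s) (hσ : 0 ≤ σ)
    (h1 : ∀ x, -σ ≤ a x) (h2 : ∀ x, -σ ≤ b x + s) (x : M) : -σ ≤ S.P a b s x :=
  (le_tr' σ _ x).trans (S.le_P a ha b hb s hs _ (tr_mem (S.P_mem a ha b hb s hs) hσ)
    (tr_le (S.P_le a ha b hb s hs) h1) (fun y => max_le (S.P_le' a ha b hb s hs y) (h2 y)) x)

theorem le_mn_of (ha : a ∈ S.Q) (hb : b ∈ S.Q) {σ : ℝ} (hσ : 0 ≤ σ)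
    (h1 : ∀ x, -σ ≤ a x) (h2 : ∀ x, -σ ≤ b x) (x : M) : -σ ≤ S.mn a b x :=
  le_P_of ha hb le_rfl hσ h1 (fun y => by simpa using h2 y) x

/-- supermodularity -/
theorem supmod (ha : a ∈ S.Q) (hb : b ∈ S.Q) : S.D (a ⊔ b) + S.D (S.mn a b) ≤ S.D a + S.D b := by
  have := S.s3 a ha b hb 0 le_rfl
  simp only [sub_zero] at this
  rw [sup_comm a b]
  exact this




theorem cost_of_le (hv : v ∈ S.Q) (ha : a ∈ S.Q) (h : v ≤ a) : S.cost v a = S.D v - S.D a := by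
  rw [cost, mn_eq_left hv ha h]

/-- submodularity (contraction) -/
theorem cost_mono (hv : v ∈ S.Q) (ha : a ∈ S.Q) (hb : b ∈ S.Q) (h : b ≤ a) :
    S.cost v b ≤ S.cost v a := by
  have hu := mn_mem hv ha
  have h1 := supmod hb hu
  have h2 : S.D a ≤ S.D (b ⊔ S.mn v a) :=
    S.anti _ (sup_mem hb hu) _ ha (sup_le h (mn_le' hv ha))
  have h3 : S.D (S.mn v b) ≤ S.D (S.mn b (S.mn v a)) :=
    S.anti _ (mn_mem hb hu) _ (mn_mem hv hb)
      (le_mn hv hb (mn_mem hb hu) ((mn_le' hb hu).trans (mn_le hv ha)) (mn_le hb hu))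
  unfold cost
  linarith

theorem cost_anti (hv : v ∈ S.Q) (hw : w ∈ S.Q) (ha : a ∈ S.Q) (h : v ≤ w) :
    S.cost w a ≤ S.cost v a :=
  sub_le_sub_right (S.anti _ (mn_mem hv ha) _ (mn_mem hw ha)
    (le_mn hw ha (mn_mem hv ha) ((mn_le hv ha).trans h) (mn_le' hv ha))) _

theorem cost_le (hv : v ∈ S.Q) (ha : a ∈ S.Q) : S.cost v a ≤ S.D v := by
  have := cost_mono hv S.zero_mem ha (S.nonpos a ha)
  rwa [cost_of_le hv S.zero_mem (S.nonpos v hv), S.D_zero, sub_zero] at this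


theorem bdd (F : Set (M → ℝ)) (a : M → ℝ) :
    BddBelow (S.D '' {f | f ∈ S.Q ∧ f ≤ a ∧ f ∈ F}) :=
  ⟨0, by rintro _ ⟨f, hf, rfl⟩; exact D_nonneg hf.1⟩

theorem dp_le (hf : f ∈ S.Q) (h1 : f ≤ a) (h2 : f ∈ F) : S.dp F a ≤ S.D f :=
  csInf_le (bdd F a) ⟨f, ⟨hf, h1, h2⟩, rfl⟩

namespace Cons

theorem nonempty (hF : S.Cons F) (ha : a ∈ S.Q) :
    (S.D '' {f | f ∈ S.Q ∧ f ≤ a ∧ f ∈ F}).Nonempty := by
  obtain ⟨f, h1, h2, h3⟩ := hF.ne a ha
  exact ⟨_, f, ⟨h1, h2, h3⟩, rfl⟩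

theorem le_dp (hF : S.Cons F) (ha : a ∈ S.Q) {c : ℝ}
    (h : ∀ f ∈ S.Q, f ≤ a → f ∈ F → c ≤ S.D f) : c ≤ S.dp F a :=
  le_csInf (hF.nonempty ha) (by rintro _ ⟨f, hf, rfl⟩; exact h f hf.1 hf.2.1 hf.2.2)

theorem near (hF : S.Cons F) (ha : a ∈ S.Q) {ε : ℝ} (hε : 0 < ε) :
    ∃ f ∈ S.Q, f ≤ a ∧ f ∈ F ∧ S.D f < S.dp F a + ε := by
  obtain ⟨_, ⟨f, hf, rfl⟩, h⟩ := exists_lt_of_csInf_lt (hF.nonempty ha) (lt_add_of_pos_right _ hε)
  exact ⟨f, hf.1, hf.2.1, hf.2.2, h⟩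

theorem le_dp₂ (hF : S.Cons F) (hF' : S.Cons F') (ha : a ∈ S.Q) (hb : b ∈ S.Q) {c : ℝ}
    (h : ∀ f ∈ S.Q, f ≤ a → f ∈ F → ∀ g ∈ S.Q, g ≤ b → g ∈ F' → c ≤ S.D f + S.D g) :
    c ≤ S.dp F a + S.dp F' b := by
  have : c - S.dp F' b ≤ S.dp F a := hF.le_dp ha fun f h1 h2 h3 => by
    have : c - S.D f ≤ S.dp F' b := hF'.le_dp hb fun g k1 k2 k3 => by
      linarith [h f h1 h2 h3 g k1 k2 k3]
    linarith
  linarith

theorem D_le_dp (hF : S.Cons F) (ha : a ∈ S.Q) : S.D a ≤ S.dp F a :=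
  hF.le_dp ha fun f h1 h2 _ => S.anti f h1 a ha h2

theorem dp_nonneg (hF : S.Cons F) (ha : a ∈ S.Q) : 0 ≤ S.dp F a :=
  (D_nonneg ha).trans (hF.D_le_dp ha)

/-- (L7) a feasible background costs nothing -/
theorem dp_eq (hF : S.Cons F) (ha : a ∈ S.Q) (h : a ∈ F) : S.dp F a = S.D a :=
  le_antisymm (dp_le ha le_rfl h) (hF.D_le_dp ha)

theorem dp_mono (hF' : S.Cons F') (ha : a ∈ S.Q) (h : ∀ f ∈ S.Q, f ∈ F' → f ∈ F) :
    S.dp F a ≤ S.dp F' a :=
  hF'.le_dp ha fun f h1 h2 h3 => dp_le h1 h2 (h f h1 h3)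

theorem dp_anti (hF : S.Cons F) (ha : a ∈ S.Q) (h : a ≤ b) : S.dp F b ≤ S.dp F a :=
  hF.le_dp ha fun _ h1 h2 h3 => dp_le h1 (h2.trans h) h3

theorem dp0_le (hF : S.Cons F) (ha : a ∈ S.Q) : S.dp F 0 ≤ S.dp F a :=
  hF.dp_anti ha (S.nonpos a ha)

/-- (L2) -/
theorem dp_mn (hF : S.Cons F) (hv : v ∈ S.Q) (hw : w ∈ S.Q) :
    S.dp F (S.mn v w) + S.dp F 0 ≤ S.dp F v + S.dp F w := by
  refine hF.le_dp₂ hF hv hw fun f h1 h2 h3 g k1 k2 k3 => ?_
  have e1 : S.dp F (S.mn v w) ≤ S.D (S.mn f g) :=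
    dp_le (mn_mem h1 k1) (le_mn hv hw (mn_mem h1 k1) ((mn_le h1 k1).trans h2)
      ((mn_le' h1 k1).trans k2)) (hF.low f h3 _ (mn_le h1 k1))
  have e2 : S.dp F 0 ≤ S.D (f ⊔ g) :=
    dp_le (sup_mem h1 k1) (S.nonpos _ (sup_mem h1 k1)) (hF.sup f h3 g k3)
  linarith [supmod h1 k1]

/-- (L3) a stronger constraint makes every background cheaper -/
theorem dp_sub (hF : S.Cons F) (hF' : S.Cons F') (h : ∀ f ∈ S.Q, f ∈ F' → f ∈ F) (ha : a ∈ S.Q)
    (hb : b ∈ S.Q) (hab : a ≤ b) : S.dp F' a + S.dp F b ≤ S.dp F a + S.dp F' b := by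
  refine hF.le_dp₂ hF' ha hb fun f h1 h2 h3 g k1 k2 k3 => ?_
  have e1 : S.dp F' a ≤ S.D (S.mn f g) :=
    dp_le (mn_mem h1 k1) ((mn_le h1 k1).trans h2) (hF'.low g k3 _ (mn_le' h1 k1))
  have e2 : S.dp F b ≤ S.D (f ⊔ g) :=
    dp_le (sup_mem h1 k1) (sup_le (h2.trans hab) k2) (hF.sup f h3 g (h g k1 k3))
  linarith [supmod h1 k1]

/-- (L4) -/
theorem dp_le_cost (hF : S.Cons F) (hv : v ∈ S.Q) (ha : a ∈ S.Q) :
    S.dp F v ≤ S.dp F a + S.cost v a := by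
  have : S.dp F v - S.cost v a ≤ S.dp F a := hF.le_dp ha fun f h1 h2 h3 => by
    have e1 : S.dp F v ≤ S.D (S.mn v f) :=
      dp_le (mn_mem hv h1) (mn_le hv h1) (hF.low f h3 _ (mn_le' hv h1))
    have e2 := cost_mono hv ha h1 h2
    unfold cost at e2 ⊢
    linarith
  linarith

/-- (L5) -/
theorem dp_le_add (hF : S.Cons F) (ha : a ∈ S.Q) : S.dp F a ≤ S.dp F 0 + S.D a :=
  (hF.dp_le_cost ha S.zero_mem).trans (by linarith [cost_le ha S.zero_mem])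






end Cons

/-- the constraint set of a family of pointwise bounds -/
def Fe {X : Type*} (W : Set X) (κ : X → M) (γ : X → ℝ) : Set (M → ℝ) :=
  {f | ∀ w ∈ W, f (κ w) ≤ γ w}

theorem cons_Fe {X : Type*} {W : Set X} {κ : X → M} {γ : X → ℝ}
    (h : ∀ a ∈ S.Q, ∃ f ∈ S.Q, f ≤ a ∧ f ∈ Fe W κ γ) : S.Cons (Fe W κ γ) :=
  ⟨fun _ hf _ hg w hw => (hg _).trans (hf w hw),
    fun _ hf _ hg w hw => max_le (hf w hw) (hg w hw), h⟩

end LS

end

end Crest.Agent.X261.Pole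
end

-- ▼ part X261/Pole/Lim

/-!
# Row 261, package POLE (helper59), file `Lim`: renormalised pole energies

`PF S` : a family of constraints `F s h` (radius `e^{-s/2}`, depth `h`), jointly convex.
`Dl k p c a = inf_s [Φ a s (c s) - k c^{p+1} s]`; under `Asy k p` it is finite, a decreasing limit,
and shifting the depth by `t` costs exactly `mc k p c * t`.
-/

set_option autoImplicit false

open Set Filter Topology

namespace Crest.Agent.X261.Pole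

noncomputable section

/-- a convex function that is bounded above near `+∞` is antitone -/
theorem antitoneOn_of_bdd {f : ℝ → ℝ} {I : Set ℝ} (hf : ConvexOn ℝ I f)
    (hI : ∀ x ∈ I, ∀ y, x ≤ y → y ∈ I) {C : ℝ} (hC : ∀ᶠ s in atTop, f s ≤ C) :
    AntitoneOn f I := by
  intro x hx y _ hxy
  rcases hxy.eq_or_lt with rfl | hxy
  · exact le_rfl
  by_contra hlt
  push Not at hlt
  obtain ⟨z, hz1, hz2, hz3⟩ := (hC.and ((eventually_gt_atTop y).and
    (eventually_gt_atTop (y + (y - x) * (C - f y) / (f y - f x))))).exists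
  have hzx : 0 < z - x := by linarith
  have h1 := hf.2 hx (hI x hx z (by linarith))
    (show 0 ≤ (z - y) / (z - x) from div_nonneg (by linarith) hzx.le)
    (show 0 ≤ (y - x) / (z - x) from div_nonneg (by linarith) hzx.le)
    (by field_simp; ring)
  have h2 : ((z - y) / (z - x)) • x + ((y - x) / (z - x)) • z = y := by
    simp only [smul_eq_mul]; field_simp; ring
  rw [h2] at h1
  simp only [smul_eq_mul] at h1
  have h3 : (z - x) * f y ≤ (z - y) * f x + (y - x) * f z := by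
    have := mul_le_mul_of_nonneg_left h1 hzx.le
    have e : (z - x) * ((z - y) / (z - x) * f x + (y - x) / (z - x) * f z)
        = (z - y) * f x + (y - x) * f z := by field_simp
    linarith
  have h4 : (y - x) * (C - f y) < (z - y) * (f y - f x) := by
    have : (y - x) * (C - f y) / (f y - f x) < z - y := by linarith
    rwa [div_lt_iff₀ (by linarith)] at this
  have h5 : (y - x) * f z ≤ (y - x) * C := mul_le_mul_of_nonneg_left hz1 (by linarith)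
  nlinarith

/-- a convex function on the line that is bounded above is constant -/
theorem eq_of_convex_bdd {f : ℝ → ℝ} (hf : ConvexOn ℝ univ f) {C : ℝ} (hC : ∀ s, f s ≤ C)
    (x y : ℝ) : f x = f y := by
  have h1 := antitoneOn_of_bdd hf (fun _ _ _ _ => mem_univ _) (Eventually.of_forall hC)
  have hg : ConvexOn ℝ univ fun s => f (-s) := by
    refine ⟨convex_univ, fun a _ b _ p q hp hq hpq => ?_⟩
    have := hf.2 (mem_univ (-a)) (mem_univ (-b)) hp hq hpq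
    simp only [smul_eq_mul] at this ⊢
    rwa [show -(p * a + q * b) = p * -a + q * -b by ring]
  have h2 := antitoneOn_of_bdd hg (fun _ _ _ _ => mem_univ _)
    (Eventually.of_forall fun s => hC (-s))
  wlog h : x ≤ y generalizing x y
  · exact (this y x (le_of_not_ge h)).symm
  refine le_antisymm ?_ (h1 (mem_univ _) (mem_univ _) h)
  simpa using h2 (mem_univ (-y)) (mem_univ (-x)) (neg_le_neg h)

/-- slope in the radius -/
def kc (k : ℝ) (p : ℕ) (c : ℝ) : ℝ := k * c ^ (p + 1)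

/-- slope in the depth (mass of the pole) -/
def mc (k : ℝ) (p : ℕ) (c : ℝ) : ℝ := (p + 1) * k * c ^ p

theorem mc_mul (k : ℝ) (p : ℕ) (c : ℝ) : mc k p c * c = (p + 1) * kc k p c := by
  unfold mc kc; ring

theorem mc_nonneg {k c : ℝ} (hk : 0 ≤ k) (p : ℕ) (hc : 0 ≤ c) : 0 ≤ mc k p c := by
  unfold mc; positivity

theorem kc_nonneg {k c : ℝ} (hk : 0 ≤ k) (p : ℕ) (hc : 0 ≤ c) : 0 ≤ kc k p c := by
  unfold kc; positivity

theorem tendsto_model (k : ℝ) (p : ℕ) (c t : ℝ) :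
    Tendsto (fun s : ℝ => k * (c * s + t) ^ (p + 1) / s ^ p - kc k p c * s) atTop
      (𝓝 (mc k p c * t)) := by
  have h1 : HasDerivAt (fun u : ℝ => k * (c + t * u) ^ (p + 1)) (mc k p c * t) 0 := by
    have := (((hasDerivAt_id (0 : ℝ)).const_mul t).const_add c).pow (p + 1) |>.const_mul k
    refine this.congr_deriv ?_
    simp only [mc, id, mul_zero, add_zero, mul_one, Nat.add_sub_cancel]
    push_cast
    ring
  have h2 : Tendsto (fun s : ℝ => s⁻¹) atTop (𝓝[≠] 0) :=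
    tendsto_inv_atTop_nhdsGT_zero.mono_right (nhdsWithin_mono _ fun x hx => ne_of_gt hx)
  refine (h1.tendsto_slope_zero.comp h2).congr' ?_
  filter_upwards [eventually_gt_atTop 0] with s hs
  simp only [Function.comp, zero_add, inv_inv, smul_eq_mul, mul_zero, add_zero, kc]
  have : c * s + t = (c + t * s⁻¹) * s := by field_simp
  rw [this, mul_pow]
  field_simp
  ring

variable {M : Type*}

/-- pole family: constraints of radius `e^{-s/2}` and depth `h` -/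
structure PF (S : LS M) where
  s0 : ℝ
  F : ℝ → ℝ → Set (M → ℝ)
  cons : ∀ s, s0 < s → ∀ h, S.Cons (F s h)
  shift : ∀ s, s0 < s → ∀ h σ, ∀ f ∈ F s h, ∀ g, (∀ x, g x ≤ f x + σ) → g ∈ F s (h - σ)
  cvx : ∀ a ∈ S.Q, ConvexOn ℝ (Ioi s0 ×ˢ univ) fun q : ℝ × ℝ => S.dp (F q.1 q.2) a

namespace PF

variable {S : LS M} (Y : PF S)

/-- the depth functional -/
def Φ (a : M → ℝ) (s h : ℝ) : ℝ := S.dp (Y.F s h) a

/-- asymptotics at a good point -/
def Asy (k : ℝ) (p : ℕ) : Prop :=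
  ∀ c₀ c₁ : ℝ, 0 < c₀ → ∃ C s₁ : ℝ, ∀ s, s₁ ≤ s → ∀ h, c₀ * s ≤ h → h ≤ c₁ * s →
    |Y.Φ 0 s h - k * h ^ (p + 1) / s ^ p| ≤ C

/-- the renormalised pole energy -/
def Dl (k : ℝ) (p : ℕ) (c : ℝ) (a : M → ℝ) : EReal :=
  ⨅ s ∈ Ioi Y.s0, ((Y.Φ a s (c * s) - kc k p c * s : ℝ) : EReal)

/-- its real value -/
def dl (k : ℝ) (p : ℕ) (c : ℝ) (a : M → ℝ) : ℝ := (Y.Dl k p c a).toReal

/-- cost of the background `a` relative to the pole -/
def cst (k : ℝ) (p : ℕ) (c : ℝ) (a : M → ℝ) : ℝ := Y.dl k p c a - Y.dl k p c 0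

variable {Y} {k : ℝ} {p : ℕ} {c : ℝ} {a b v w : M → ℝ} {s : ℝ}

theorem F_anti (hs : Y.s0 < s) {h h' : ℝ} (hh : h ≤ h') {f : M → ℝ} (hf : f ∈ Y.F s h') :
    f ∈ Y.F s h := by
  have := Y.shift s hs h' (h' - h) f hf f fun x => by linarith
  rwa [sub_sub_cancel] at this

theorem Φ_mono (ha : a ∈ S.Q) (hs : Y.s0 < s) {h h' : ℝ} (hh : h ≤ h') :
    Y.Φ a s h ≤ Y.Φ a s h' :=
  (Y.cons s hs h').dp_mono ha fun _ _ hf => F_anti hs hh hf

theorem Φ_nonneg (ha : a ∈ S.Q) (hs : Y.s0 < s) (h : ℝ) : 0 ≤ Y.Φ a s h :=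
  (Y.cons s hs h).dp_nonneg ha

theorem Φ0_le (ha : a ∈ S.Q) (hs : Y.s0 < s) (h : ℝ) : Y.Φ 0 s h ≤ Y.Φ a s h :=
  (Y.cons s hs h).dp0_le ha

theorem Φ_le_add (ha : a ∈ S.Q) (hs : Y.s0 < s) (h : ℝ) : Y.Φ a s h ≤ Y.Φ 0 s h + S.D a :=
  (Y.cons s hs h).dp_le_add ha

theorem Φ_eq (ha : a ∈ S.Q) (hs : Y.s0 < s) {h : ℝ} (hF : a ∈ Y.F s h) : Y.Φ a s h = S.D a :=
  (Y.cons s hs h).dp_eq ha hF



theorem Dl_le (hs : Y.s0 < s) : Y.Dl k p c a ≤ ((Y.Φ a s (c * s) - kc k p c * s : ℝ) : EReal) :=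
  biInf_le (fun s => ((Y.Φ a s (c * s) - kc k p c * s : ℝ) : EReal)) hs


theorem convex_ray (ha : a ∈ S.Q) (c t κ : ℝ) :
    ConvexOn ℝ (Ioi Y.s0) fun s => Y.Φ a s (c * s + t) - κ * s := by
  refine ⟨convex_Ioi _, fun x hx y hy α β hα hβ hαβ => ?_⟩
  have := (Y.cvx a ha).2 (x := (x, c * x + t)) (y := (y, c * y + t)) ⟨hx, mem_univ _⟩
    ⟨hy, mem_univ _⟩ hα hβ hαβ
  simp only [Prod.smul_mk, Prod.mk_add_mk, smul_eq_mul] at this ⊢
  have e : α * (c * x + t) + β * (c * y + t) = c * (α * x + β * y) + t := by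
    linear_combination t * hαβ
  rw [e] at this
  unfold Φ
  linarith

theorem convex_depth (ha : a ∈ S.Q) (hs : Y.s0 < s) : ConvexOn ℝ univ fun h => Y.Φ a s h := by
  refine ⟨convex_univ, fun x _ y _ α β hα hβ hαβ => ?_⟩
  have := (Y.cvx a ha).2 (x := (s, x)) (y := (s, y)) ⟨hs, mem_univ _⟩ ⟨hs, mem_univ _⟩ hα hβ hαβ
  simp only [Prod.smul_mk, Prod.mk_add_mk, smul_eq_mul] at this ⊢
  rwa [← add_mul, hαβ, one_mul] at this

namespace Asy

theorem bound (hY : Y.Asy k p) (hc : 0 < c) (ha : a ∈ S.Q) : ∃ C : ℝ, ∀ t : ℝ,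
    ∀ᶠ s in atTop, |Y.Φ a s (c * s + t) - kc k p c * s - mc k p c * t| ≤ C := by
  obtain ⟨C, s₁, hC⟩ := hY (c / 2) (2 * c) (half_pos hc)
  refine ⟨C + 1 + S.D a, fun t => ?_⟩
  have h1 := (tendsto_model k p c t).eventually (Metric.ball_mem_nhds _ one_pos)
  filter_upwards [h1, eventually_ge_atTop s₁, eventually_gt_atTop Y.s0,
    eventually_ge_atTop (2 * |t| / c)] with s e1 e2 e3 e4
  rw [div_le_iff₀ hc] at e4
  have e5 := hC s e2 (c * s + t) (by linarith [neg_abs_le t]) (by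
    linarith [le_abs_self t, abs_nonneg t])
  rw [Real.dist_eq] at e1
  have e6 := Φ0_le ha e3 (c * s + t)
  have e7 := Φ_le_add ha e3 (c * s + t)
  have e8 := LS.D_nonneg ha
  rw [abs_le] at e5 ⊢
  rw [abs_lt] at e1
  constructor <;> linarith [e1.1, e1.2, e5.1, e5.2]

theorem anti (hY : Y.Asy k p) (hc : 0 < c) (ha : a ∈ S.Q) (t : ℝ) :
    AntitoneOn (fun s => Y.Φ a s (c * s + t) - kc k p c * s) (Ioi Y.s0) := by
  obtain ⟨C, hC⟩ := hY.bound hc ha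
  refine antitoneOn_of_bdd (convex_ray ha c t _) (fun x hx y hy => lt_of_lt_of_le hx hy)
    (C := C + mc k p c * t) ?_
  filter_upwards [hC t] with s hs
  linarith [(abs_le.1 hs).2]

theorem exists_lim (hY : Y.Asy k p) (hc : 0 < c) (ha : a ∈ S.Q) (t : ℝ) : ∃ L : ℝ,
    Tendsto (fun s => Y.Φ a s (c * s + t) - kc k p c * s) atTop (𝓝 L) ∧
      ∀ s, Y.s0 < s → L ≤ Y.Φ a s (c * s + t) - kc k p c * s := by
  obtain ⟨C, hC⟩ := hY.bound hc ha
  set g : ℝ → ℝ := fun s => Y.Φ a s (c * s + t) - kc k p c * s with hg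
  have h1 : Antitone fun s => g (max s (Y.s0 + 1)) := fun x y hxy =>
    hY.anti hc ha t (show Y.s0 < _ from lt_max_of_lt_right (by linarith))
      (show Y.s0 < _ from lt_max_of_lt_right (by linarith)) (max_le_max_right _ hxy)
  have h3 : ∀ s, Y.s0 < s → mc k p c * t - C ≤ g s := fun s hs => by
    obtain ⟨z, hz1, hz2⟩ := ((hC t).and (eventually_ge_atTop s)).exists
    have := hY.anti hc ha t hs (lt_of_lt_of_le hs hz2) hz2
    have h := (abs_le.1 hz1).1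
    simp only [hg] at this ⊢
    linarith
  have h2 : BddBelow (range fun s => g (max s (Y.s0 + 1))) :=
    ⟨_, by rintro _ ⟨s, rfl⟩; exact h3 _ (lt_max_of_lt_right (by linarith))⟩
  have h4 : Tendsto g atTop (𝓝 (⨅ s, g (max s (Y.s0 + 1)))) := by
    refine (tendsto_atTop_ciInf h1 h2).congr' ?_
    filter_upwards [eventually_ge_atTop (Y.s0 + 1)] with s hs
    rw [max_eq_left hs]
  refine ⟨_, h4, fun s hs => le_of_tendsto h4 ?_⟩
  filter_upwards [eventually_ge_atTop s] with z hz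
  exact hY.anti hc ha t hs (lt_of_lt_of_le hs hz) hz

theorem Dl_eq (hY : Y.Asy k p) (hc : 0 < c) (ha : a ∈ S.Q) {L : ℝ}
    (h1 : Tendsto (fun s => Y.Φ a s (c * s + 0) - kc k p c * s) atTop (𝓝 L))
    (h2 : ∀ s, Y.s0 < s → L ≤ Y.Φ a s (c * s + 0) - kc k p c * s) : Y.Dl k p c a = L := by
  have _ := hY.anti hc ha 0
  simp only [add_zero] at h1 h2
  refine le_antisymm ?_ (le_iInf₂ fun s hs => EReal.coe_le_coe_iff.2 (h2 s hs))
  refine ge_of_tendsto (continuous_coe_real_ereal.continuousAt.tendsto.comp h1) ?_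
  filter_upwards [eventually_gt_atTop Y.s0] with s hs
  exact Dl_le hs

theorem coe_dl (hY : Y.Asy k p) (hc : 0 < c) (ha : a ∈ S.Q) :
    (Y.dl k p c a : EReal) = Y.Dl k p c a := by
  obtain ⟨L, h1, h2⟩ := hY.exists_lim hc ha 0
  rw [dl, hY.Dl_eq hc ha h1 h2, EReal.toReal_coe]

/-- **exact shift law** -/
theorem tendsto (hY : Y.Asy k p) (hc : 0 < c) (ha : a ∈ S.Q) (t : ℝ) :
    Tendsto (fun s => Y.Φ a s (c * s + t) - kc k p c * s) atTop
      (𝓝 (Y.dl k p c a + mc k p c * t)) := by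
  choose L hL hL' using hY.exists_lim hc ha
  obtain ⟨C, hC⟩ := hY.bound hc ha
  have h1 : ConvexOn ℝ univ fun t => L t - mc k p c * t := by
    refine ⟨convex_univ, fun x _ y _ α β hα hβ hαβ => ?_⟩
    have : L (α * x + β * y) ≤ α * L x + β * L y := by
      refine le_of_tendsto_of_tendsto (hL _) (((hL x).const_mul α).add ((hL y).const_mul β)) ?_
      filter_upwards [eventually_gt_atTop Y.s0] with s hs
      have := (convex_depth ha hs).2 (mem_univ (c * s + x)) (mem_univ (c * s + y)) hα hβ hαβ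
      simp only [smul_eq_mul] at this
      have e : α * (c * s + x) + β * (c * s + y) = c * s + (α * x + β * y) := by
        linear_combination (c * s) * hαβ
      have e' : kc k p c * s = α * (kc k p c * s) + β * (kc k p c * s) := by
        rw [← add_mul, hαβ, one_mul]
      rw [e] at this
      linarith
    simp only [smul_eq_mul]
    linarith
  have h2 : ∀ t, L t - mc k p c * t ≤ C := fun t => by
    refine le_of_tendsto ((hL t).sub_const _) ?_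
    filter_upwards [hC t] with s hs using (abs_le.1 hs).2
  have h3 := eq_of_convex_bdd h1 h2 t 0
  have h4 : Y.dl k p c a = L 0 := by
    rw [dl, hY.Dl_eq hc ha (hL 0) (hL' 0), EReal.toReal_coe]
  rw [h4, show L 0 + mc k p c * t = L t by linarith]
  exact hL t

theorem tendsto0 (hY : Y.Asy k p) (hc : 0 < c) (ha : a ∈ S.Q) :
    Tendsto (fun s => Y.Φ a s (c * s) - kc k p c * s) atTop (𝓝 (Y.dl k p c a)) := by
  simpa using hY.tendsto hc ha 0

/-- upper bound by any finite configuration -/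
theorem dl_le (hY : Y.Asy k p) (hc : 0 < c) (ha : a ∈ S.Q) (hs : Y.s0 < s) (h : ℝ) :
    Y.dl k p c a ≤ Y.Φ a s h - kc k p c * s - mc k p c * (h - c * s) := by
  have : Y.dl k p c a + mc k p c * (h - c * s) ≤
      Y.Φ a s (c * s + (h - c * s)) - kc k p c * s := by
    refine le_of_tendsto (hY.tendsto hc ha _) ?_
    filter_upwards [eventually_ge_atTop s] with z hz
    exact hY.anti hc ha _ hs (lt_of_lt_of_le hs hz) hz
  rw [add_sub_cancel] at this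
  linarith

/-- (R) and the `L`-frame bound: a feasible background -/
theorem dl_le_of_mem (hY : Y.Asy k p) (hc : 0 < c) (ha : a ∈ S.Q) (hs : Y.s0 < s) {h : ℝ}
    (hF : a ∈ Y.F s h) : Y.dl k p c a ≤ S.D a - kc k p c * s - mc k p c * (h - c * s) := by
  rw [← Φ_eq ha hs hF]; exact hY.dl_le hc ha hs h

theorem tendsto_cst (hY : Y.Asy k p) (hc : 0 < c) (ha : a ∈ S.Q) (t : ℝ) :
    Tendsto (fun s => Y.Φ a s (c * s + t) - Y.Φ 0 s (c * s + t)) atTop (𝓝 (Y.cst k p c a)) := by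
  have := (hY.tendsto hc ha t).sub (hY.tendsto hc S.zero_mem t)
  simp only [sub_sub_sub_cancel_right, add_sub_add_right_eq_sub] at this
  exact this

theorem tendsto_cst0 (hY : Y.Asy k p) (hc : 0 < c) (ha : a ∈ S.Q) :
    Tendsto (fun s => Y.Φ a s (c * s) - Y.Φ 0 s (c * s)) atTop (𝓝 (Y.cst k p c a)) := by
  simpa using hY.tendsto_cst hc ha 0

/-- difference quotients in the depth -/
theorem tendsto_diff (hY : Y.Asy k p) (hc : 0 < c) (ha : a ∈ S.Q) (t t' : ℝ) :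
    Tendsto (fun s => Y.Φ a s (c * s + t) - Y.Φ a s (c * s + t')) atTop
      (𝓝 (mc k p c * (t - t'))) := by
  have := (hY.tendsto hc ha t).sub (hY.tendsto hc ha t')
  simp only [sub_sub_sub_cancel_right, add_sub_add_left_eq_sub] at this
  rwa [mul_sub]

theorem cst_nonneg (hY : Y.Asy k p) (hc : 0 < c) (ha : a ∈ S.Q) : 0 ≤ Y.cst k p c a := by
  refine ge_of_tendsto (hY.tendsto_cst0 hc ha) ?_
  filter_upwards [eventually_gt_atTop Y.s0] with s hs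
  linarith [Φ0_le ha hs (c * s)]



theorem cst_anti (hY : Y.Asy k p) (hc : 0 < c) (ha : a ∈ S.Q) (hb : b ∈ S.Q) (h : a ≤ b) :
    Y.cst k p c b ≤ Y.cst k p c a := by
  refine le_of_tendsto_of_tendsto (hY.tendsto_cst0 hc hb) (hY.tendsto_cst0 hc ha) ?_
  filter_upwards [eventually_gt_atTop Y.s0] with s hs
  exact sub_le_sub_right ((Y.cons s hs _).dp_anti ha h) _

/-- triangle inequality pole - background - background -/
theorem cst_tri (hY : Y.Asy k p) (hc : 0 < c) (hv : v ∈ S.Q) (ha : a ∈ S.Q) :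
    Y.cst k p c v ≤ Y.cst k p c a + S.cost v a := by
  refine le_of_tendsto_of_tendsto (hY.tendsto_cst0 hc hv)
    ((hY.tendsto_cst0 hc ha).add_const _) ?_
  filter_upwards [eventually_gt_atTop Y.s0] with s hs
  have := (Y.cons s hs (c * s)).dp_le_cost hv ha
  simp only [Φ]
  linarith

theorem cst_mn (hY : Y.Asy k p) (hc : 0 < c) (hv : v ∈ S.Q) (hw : w ∈ S.Q) :
    Y.cst k p c (S.mn v w) ≤ Y.cst k p c v + Y.cst k p c w := by
  refine le_of_tendsto_of_tendsto (hY.tendsto_cst0 hc (LS.mn_mem hv hw))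
    ((hY.tendsto_cst0 hc hv).add (hY.tendsto_cst0 hc hw)) ?_
  filter_upwards [eventually_gt_atTop Y.s0] with s hs
  have := (Y.cons s hs (c * s)).dp_mn hv hw
  simp only [Φ]
  linarith




theorem k_nonneg (hY : Y.Asy k p) : 0 ≤ k := by
  have h1 := hY.tendsto_diff one_pos S.zero_mem 1 0
  have h2 : 0 ≤ mc k p 1 * (1 - 0) := by
    refine ge_of_tendsto h1 ?_
    filter_upwards [eventually_gt_atTop Y.s0] with s hs
    exact sub_nonneg.2 (Φ_mono S.zero_mem hs (by linarith))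
  simp only [mc, one_pow, mul_one, sub_zero] at h2
  by_contra h3
  push Not at h3
  have : ((p : ℝ) + 1) * k < 0 := mul_neg_of_pos_of_neg (by positivity) h3
  linarith


end Asy

end PF

end

end Crest.Agent.X261.Pole
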