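import Crest.Agent.X261.Pole.Lim
import Crest.Agent.X261.Two.Sel
import Crest.Agent.X261.BT.Defs
import Crest.Agent.X261.Psh.Kis71
import Crest.Agent.X261.Psh.Cvx

-- ▼ part X261/Pole/ES
section

/-!
# Row 261, package POLE (helper59), file `ES`

`ES M` = `DS M` (discs) + envelopes and supermodularity; `Geo S H` links it with the
Bedford-Taylor objects of the form `H`.
-/

set_option autoImplicit false

open Set Filter Topology Metric

namespace Crest.Agent.X261.Pole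

open Crest.Agent.X261.Two Crest.Agent.X261.BT
open Crest.Agent.R275.Geo
open Crest.Agent.R281.Rich_710 (PshL)
open Crest.Agent.R281.Kp_487 (KP pot)

noncomputable section

/-- energy system: discs and lattice -/
structure ES (M : Type*) [TopologicalSpace M] extends DS M where
  P : (M → ℝ) → (M → ℝ) → ℝ → M → ℝ
  P_mem : ∀ a ∈ Q, ∀ b ∈ Q, ∀ s : ℝ, 0 ≤ s → P a b s ∈ Q
  P_le : ∀ a ∈ Q, ∀ b ∈ Q, ∀ s : ℝ, 0 ≤ s → P a b s ≤ a
  P_le' : ∀ a ∈ Q, ∀ b ∈ Q, ∀ s : ℝ, 0 ≤ s → ∀ x, P a b s x ≤ b x + s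
  le_P : ∀ a ∈ Q, ∀ b ∈ Q, ∀ s : ℝ, 0 ≤ s → ∀ f ∈ Q, f ≤ a → (∀ x, f x ≤ b x + s) → f ≤ P a b s
  s3 : ∀ a ∈ Q, ∀ b ∈ Q, ∀ s : ℝ, 0 ≤ s →
    D (b ⊔ fun x => a x - s) + D (P a b s) ≤ D a + D b
  cvx : ConvexOn ℝ Q D

namespace ES

variable {M : Type*} [TopologicalSpace M] (S : ES M)

/-- the lattice part -/
def ls : LS M where
  Q := S.Q
  D := S.D
  P := S.P
  zero_mem := S.zero_mem
  D_zero := S.D_zero
  nonpos := S.nonpos
  anti := S.anti
  maxs_mem := S.maxs_mem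
  P_mem := S.P_mem
  P_le := S.P_le
  P_le' := S.P_le'
  le_P := S.le_P
  s3 := S.s3
  cvx := S.cvx

@[simp] theorem ls_Q : S.ls.Q = S.Q := rfl
@[simp] theorem ls_D : S.ls.D = S.D := rfl
@[simp] theorem ls_P : S.ls.P = S.P := rfl


/-- constraints on a compact set are admissible -/
theorem cons_Fe {X : Type*} {W : Set X} {κ : X → M} {γ : X → ℝ} {K : Set M} (hK : IsCompact K)
    (hκ : ∀ w ∈ W, κ w ∈ K) {C : ℝ} (hγ : ∀ w ∈ W, -C ≤ γ w) : S.ls.Cons (LS.Fe W κ γ) := by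
  refine LS.cons_Fe fun a ha => ?_
  obtain ⟨Ka, Ta, hKa, -, hSa⟩ := DS.exists_SB (S := S.toDS) ha
  obtain ⟨b, hb, hbT⟩ := S.bfun _ (hK.union hKa) (max C Ta)
  refine ⟨b, hb, fun x => ?_, fun w hw => ?_⟩
  · by_cases hx : x ∈ Ka
    · have h1 := hbT x (Or.inr hx)
      have h2 := hSa.2 x
      have h3 := le_max_right C Ta
      linarith
    · rw [hSa.1 x hx]; exact S.nonpos b hb x
  · have h1 := hbT _ (Or.inl (hκ w hw))
    have h2 := hγ w hw
    have h3 := le_max_left C Ta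
    linarith

end ES

/-- the energy system belongs to the form `H` -/
structure Geo {n : ℕ} {M : Type} [TopologicalSpace M] {A : Atl n M} (S : DS M) (H : KP A) :
    Prop where
  qp : ∀ f ∈ S.Q, QP H univ f
  mem : ∀ f, PP H f → f ≤ 0 → f ∈ S.Q
  jc : ∀ V, S.JP V → ContinuousOn (fun p : ℂ × M => V p.1 p.2) (closedBall 0 1 ×ˢ univ)
  jp : ∀ V, S.JP V → ∀ i,
    PshL (ball 0 1 ×ˢ (A.e i).target) fun p : ℂ × Cn n => pot H (V p.1) i p.2

end

end Crest.Agent.X261.Pole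
end

-- ▼ part X261/Pole/Plq

/-!
# Row 261, package POLE (helper59), file `Plq`: plaque charts

`PCh A p r` : holomorphic `ψ : ball 0 2 × ball 0 2 → target i`.  `C.F H y B h` : the functions with
`f + ρ ≤ -h` on the plaque set `ψ ((y + B (closed ball)) × closed ball)`.
`fam`, `psh` (DISC), `pf` (pole family), `sch` (three circles), `psh_Dl` (Kiselman).
-/

set_option autoImplicit false

open Set Filter Topology Metric

namespace Crest.Agent.X261.Pole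

open Crest.Agent.X261.Two Crest.Agent.X261.BT Crest.Agent.X261.Psh Crest.Agent.X261.Psh.Kis
open Crest.Agent.R275.Geo
open Crest.Agent.R275.FL884 (DiscIn)
open Crest.Agent.R281.Rich_710 (PshL)
open Crest.Agent.R281.Kp_487 (KP pot)

noncomputable section

variable {n : ℕ} {M : Type} [TopologicalSpace M] {A : Atl n M} {p r : ℕ}

/-- plaque chart -/
structure PCh (A : Atl n M) (p r : ℕ) where
  i : A.ι
  ψ : Cn p × Cn r → Cn n
  hol : DifferentiableOn ℂ ψ (ball 0 2 ×ˢ ball 0 2)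
  maps : MapsTo ψ (ball 0 2 ×ˢ ball 0 2) (A.e i).target

/-- parameter space: centre, shape, depth -/
abbrev Par (p : ℕ) : Type := Cn p × (Cn p →L[ℂ] Cn p) × ℂ

/-- admissible parameters -/
def PO (p : ℕ) : Set (Par p) := {e | ‖e.1‖ + ‖e.2.1‖ < 2}

/-- the product of the closed unit balls -/
def PW (p r : ℕ) : Set (Cn p × Cn r) := closedBall 0 1 ×ˢ closedBall 0 1

/-- the radius `e^{-s/2}` -/
def rad (s : ℝ) : ℂ := (Real.exp (-s / 2) : ℝ)

theorem norm_rad (s : ℝ) : ‖rad s‖ = Real.exp (-s / 2) := by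
  rw [rad, Complex.norm_real, Real.norm_of_nonneg (Real.exp_pos _).le]


theorem rad_ne (s : ℝ) : rad s ≠ 0 := by
  rw [← norm_pos_iff, norm_rad]; exact Real.exp_pos _

theorem norm_cexp (τ : ℂ) : ((‖Complex.exp (-τ / 2)‖ : ℝ) : ℂ) = rad τ.re := by
  rw [Complex.norm_exp, rad]; simp

theorem isOpen_PO : IsOpen (PO p) := isOpen_lt (by fun_prop) continuous_const

theorem isCompact_PW : IsCompact (PW p r) := (isCompact_closedBall _ _).prod (isCompact_closedBall _ _)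

theorem norm_aff_le (y : Cn p) (B : Cn p →L[ℂ] Cn p) {w : Cn p} (hw : ‖w‖ ≤ 1) :
    ‖y + B w‖ ≤ ‖y‖ + ‖B‖ := by
  refine (norm_add_le _ _).trans (add_le_add_right ((B.le_opNorm w).trans ?_) _)
  exact mul_le_of_le_one_right (norm_nonneg _) hw

theorem aff_mem {y : Cn p} {B : Cn p →L[ℂ] Cn p} (h : ‖y‖ + ‖B‖ < 2) {w : Cn p} (hw : ‖w‖ ≤ 1)
    {w' : Cn r} (hw' : ‖w'‖ ≤ 1) : (y + B w, w') ∈ (ball 0 2 ×ˢ ball 0 2 : Set (Cn p × Cn r)) :=
  ⟨mem_ball_zero_iff.2 ((norm_aff_le y B hw).trans_lt h),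
    mem_ball_zero_iff.2 (hw'.trans_lt one_lt_two)⟩

theorem PO_rad {y : Cn p} {B : Cn p →L[ℂ] Cn p} {s0 s : ℝ}
    (h : ‖y‖ + Real.exp (-s0 / 2) * ‖B‖ < 2) (hs : s0 ≤ s) : ‖y‖ + ‖rad s • B‖ < 2 := by
  rw [norm_smul, norm_rad]
  have : Real.exp (-s / 2) ≤ Real.exp (-s0 / 2) := Real.exp_le_exp.2 (by linarith)
  nlinarith [norm_nonneg B]

namespace PCh

variable (C : PCh A p r) (H : KP A)

/-- the point with coordinates `q` -/
def pt (q : Cn p × Cn r) : M := (A.e C.i).symm (C.ψ q)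

/-- the potential -/
def rho (q : Cn p × Cn r) : ℝ := H.wt C.i (C.ψ q)

/-- constraint points -/
def kap (e : Par p) (x : Cn p × Cn r) : M := C.pt (e.1 + e.2.1 x.1, x.2)

/-- constraint values -/
def gam (e : Par p) (x : Cn p × Cn r) : ℝ := -C.rho H (e.1 + e.2.1 x.1, x.2) - e.2.2.re

/-- `f + ρ ≤ -h` on the plaque set with centre `y` and shape `B` -/
def F (y : Cn p) (B : Cn p →L[ℂ] Cn p) (h : ℝ) : Set (M → ℝ) :=
  LS.Fe (PW p r) (C.kap (y, B, h)) (C.gam H (y, B, h))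

variable {C H}

theorem mem_F {y : Cn p} {B : Cn p →L[ℂ] Cn p} {h : ℝ} {f : M → ℝ} : f ∈ C.F H y B h ↔
    ∀ w, ‖w‖ ≤ 1 → ∀ w', ‖w'‖ ≤ 1 → f (C.pt (y + B w, w')) + C.rho H (y + B w, w') ≤ -h := by
  constructor
  · intro hf w hw w' hw'
    have := hf (w, w') ⟨mem_closedBall_zero_iff.2 hw, mem_closedBall_zero_iff.2 hw'⟩
    simp only [kap, gam, Complex.ofReal_re] at this
    linarith
  · intro hf x hx
    have := hf x.1 (mem_closedBall_zero_iff.1 hx.1) x.2 (mem_closedBall_zero_iff.1 hx.2)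
    simp only [kap, gam, Complex.ofReal_re]
    linarith


theorem pot_eq (f : M → ℝ) (q : Cn p × Cn r) :
    pot H f C.i (C.ψ q) = f (C.pt q) + C.rho H q := by
  rw [pot_apply, add_comm]; rfl

/-- smaller plaque sets give weaker constraints -/
theorem F_mono {y y' : Cn p} {B B' : Cn p →L[ℂ] Cn p} {h h' : ℝ}
    (hB : ∀ w, ‖w‖ ≤ 1 → ∃ v, ‖v‖ ≤ 1 ∧ y' + B' w = y + B v) (hh : h' ≤ h) :
    C.F H y B h ⊆ C.F H y' B' h' := fun f hf => mem_F.2 fun w hw w' hw' => by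
  obtain ⟨v, hv, e⟩ := hB w hw
  rw [e]
  linarith [mem_F.1 hf v hv w' hw']

theorem F_smul_le {y : Cn p} {B : Cn p →L[ℂ] Cn p} {h : ℝ} {a b : ℂ} (hab : ‖a‖ ≤ ‖b‖) :
    C.F H y (b • B) h ⊆ C.F H y (a • B) h := by
  refine F_mono (fun w hw => ?_) le_rfl
  by_cases hb : b = 0
  · have : a = 0 := by simpa [hb] using hab
    exact ⟨w, hw, by simp [hb, this]⟩
  refine ⟨(a / b) • w, ?_, ?_⟩
  · rw [norm_smul, norm_div]
    exact mul_le_one₀ (div_le_one_of_le₀ hab (norm_nonneg _)) (norm_nonneg _) hw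
  · simp [smul_smul, div_mul_cancel₀ _ hb]

theorem F_rot (y : Cn p) (B : Cn p →L[ℂ] Cn p) (h : ℝ) (a : ℂ) :
    C.F H y (a • B) h = C.F H y (((‖a‖ : ℝ) : ℂ) • B) h :=
  Subset.antisymm (F_smul_le (by simp)) (F_smul_le (by simp))

theorem F_cexp (y : Cn p) (B : Cn p →L[ℂ] Cn p) (h : ℝ) (τ : ℂ) :
    C.F H y (Complex.exp (-τ / 2) • B) h = C.F H y (rad τ.re • B) h := by
  rw [F_rot, norm_cexp]

theorem F_shift {y : Cn p} {B : Cn p →L[ℂ] Cn p} {h σ : ℝ} {f g : M → ℝ} (hf : f ∈ C.F H y B h)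
    (hg : ∀ x, g x ≤ f x + σ) : g ∈ C.F H y B (h - σ) := mem_F.2 fun w hw w' hw' => by
  linarith [mem_F.1 hf w hw w' hw', hg (C.pt (y + B w, w'))]

variable (C H)

theorem contOn_pt : ContinuousOn C.pt (ball 0 2 ×ˢ ball 0 2) :=
  (A.e C.i).continuousOn_symm.comp C.hol.continuousOn C.maps

theorem contOn_rho : ContinuousOn (C.rho H) (ball 0 2 ×ˢ ball 0 2) :=
  (H.sm C.i).continuousOn.comp C.hol.continuousOn C.maps


theorem mapsTo_par : MapsTo (fun z : Par p × (Cn p × Cn r) => (z.1.1 + z.1.2.1 z.2.1, z.2.2))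
    (PO p ×ˢ PW p r) (ball 0 2 ×ˢ ball 0 2) := fun _ hz =>
  aff_mem hz.1 (mem_closedBall_zero_iff.1 hz.2.1) (mem_closedBall_zero_iff.1 hz.2.2)

theorem contOn_kap : ContinuousOn (fun z : Par p × (Cn p × Cn r) => C.kap z.1 z.2)
    (PO p ×ˢ PW p r) :=
  C.contOn_pt.comp (by fun_prop) mapsTo_par

theorem contOn_gam : ContinuousOn (fun z : Par p × (Cn p × Cn r) => C.gam H z.1 z.2)
    (PO p ×ˢ PW p r) :=
  ((C.contOn_rho H).comp (by fun_prop) mapsTo_par).neg.sub (by fun_prop)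

theorem exists_bd : ∃ b : ℝ, 0 ≤ b ∧ ∀ q : Cn p × Cn r, ‖q.1‖ ≤ 3 / 2 → ‖q.2‖ ≤ 3 / 2 →
    |C.rho H q| ≤ b := by
  obtain ⟨b, hb⟩ := ((isCompact_closedBall (0 : Cn p) (3 / 2)).prod
    (isCompact_closedBall (0 : Cn r) (3 / 2))).exists_bound_of_continuousOn
    ((C.contOn_rho H).mono (prod_mono (closedBall_subset_ball (by norm_num))
      (closedBall_subset_ball (by norm_num))))
  exact ⟨max b 0, le_max_right _ _, fun q h1 h2 => (hb q ⟨mem_closedBall_zero_iff.2 h1,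
    mem_closedBall_zero_iff.2 h2⟩).trans (le_max_left _ _)⟩

/-- a bound for the potential -/
def bd : ℝ := (C.exists_bd H).choose

theorem bd_nonneg : 0 ≤ C.bd H := (C.exists_bd H).choose_spec.1

theorem abs_rho_le {q : Cn p × Cn r} (h1 : ‖q.1‖ ≤ 3 / 2) (h2 : ‖q.2‖ ≤ 3 / 2) :
    |C.rho H q| ≤ C.bd H := (C.exists_bd H).choose_spec.2 q h1 h2

variable {C H}

theorem mem_F_bd {y : Cn p} {B : Cn p →L[ℂ] Cn p} (hy : ‖y‖ + ‖B‖ ≤ 3 / 2) {f : M → ℝ}
    (hf : f ≤ 0) : f ∈ C.F H y B (-C.bd H) := mem_F.2 fun w hw w' hw' => by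
  have h1 := (abs_le.1 (C.abs_rho_le H (q := (y + B w, w')) ((norm_aff_le y B hw).trans hy)
    (hw'.trans (by norm_num)))).2
  have h2 : f (C.pt (y + B w, w')) ≤ 0 := hf _
  linarith

theorem cons (S : ES M) {y : Cn p} {B : Cn p →L[ℂ] Cn p} (hy : ‖y‖ + ‖B‖ < 2) (h : ℝ) :
    S.ls.Cons (C.F H y B h) := by
  have hm : MapsTo (fun x : Cn p × Cn r => (y + B x.1, x.2)) (PW p r) (ball 0 2 ×ˢ ball 0 2) :=
    fun x hx => aff_mem hy (mem_closedBall_zero_iff.1 hx.1) (mem_closedBall_zero_iff.1 hx.2)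
  have hc : ContinuousOn (fun x : Cn p × Cn r => (y + B x.1, x.2)) (PW p r) := by fun_prop
  obtain ⟨b, hb⟩ := isCompact_PW.exists_bound_of_continuousOn ((C.contOn_rho H).comp hc hm)
  refine S.cons_Fe (isCompact_PW.image_of_continuousOn (C.contOn_pt.comp hc hm))
    (fun w hw => ⟨w, hw, rfl⟩) (C := b + h) fun w hw => ?_
  have := (abs_le.1 (hb w hw)).2
  simp only [gam, Complex.ofReal_re, Function.comp] at this ⊢
  linarith

/-- a quasi-psh function read in the plaque chart -/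
theorem psh_pot {f : M → ℝ} (hf : QP H univ f) :
    IsPsh (ball 0 2 ×ˢ ball 0 2) fun q => ((f (C.pt q) + C.rho H q : ℝ) : EReal) := by
  have h1 := hf.cp C.i
  rw [chU_univ] at h1
  have h2 := isPsh_of_pshL (A.e C.i).open_target h1.1 h1.2
  exact (Hol.comp_hol (A.e C.i).open_target h2 C.hol C.maps).congr fun q _ => by
    simp only [pot_eq]

/-- the barrier property -/
theorem mp {S : DS M} (hG : Geo S H) (z v : Par p) (hz : DiscIn (PO p) z v) (V : ℂ → M → ℝ)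
    (hV : S.JP V) (x : Cn p × Cn r) (hx : x ∈ PW p r)
    (h : ∀ w : ℂ, ‖w‖ = 1 → V w (C.kap (z + w • v) x) ≤ C.gam H (z + w • v) x) :
    V 0 (C.kap z x) ≤ C.gam H z x := by
  set q : ℂ → Cn p × Cn r := fun w => ((z + w • v).1 + (z + w • v).2.1 x.1, x.2) with hq
  have hqm : ∀ w : ℂ, ‖w‖ ≤ 1 → q w ∈ (ball 0 2 ×ˢ ball 0 2 : Set (Cn p × Cn r)) := fun w hw =>
    mapsTo_par (x := (z + w • v, x)) ⟨hz w hw, hx⟩
  have hqd : Differentiable ℂ q := by
    simp only [hq, Prod.fst_add, Prod.smul_fst, Prod.snd_add, Prod.smul_snd,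
      add_apply, smul_apply]
    fun_prop
  have hO : IsOpen (ball (0 : ℂ) 1 ×ˢ (A.e C.i).target) := isOpen_ball.prod (A.e C.i).open_target
  have hc : ContinuousOn (fun t : ℂ × Cn n => pot H (V t.1) C.i t.2)
      (closedBall 0 1 ×ˢ (A.e C.i).target) := by
    refine ((H.sm C.i).continuousOn.comp continuousOn_snd fun t ht => ht.2).add ?_
    exact (hG.jc V hV).comp (f := fun t : ℂ × Cn n => (t.1, (A.e C.i).symm t.2))
      (continuousOn_fst.prodMk ((A.e C.i).continuousOn_symm.comp continuousOn_snd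
        fun t ht => ht.2)) fun t ht => ⟨ht.1, mem_univ _⟩
  have h1 := isPsh_of_pshL hO (hc.mono (prod_mono ball_subset_closedBall subset_rfl))
    (hG.jp V hV C.i)
  have h2 : IsPsh (ball (0 : ℂ) 1) fun w => ((pot H (V w) C.i (C.ψ (q w)) : ℝ) : EReal) :=
    Hol.comp_hol hO h1 (φ := fun w => (w, C.ψ (q w)))
      (differentiableOn_id.prodMk (C.hol.comp hqd.differentiableOn fun w hw =>
        hqm w (mem_ball_zero_iff.1 hw).le))
      fun w hw => ⟨hw, C.maps (hqm w (mem_ball_zero_iff.1 hw).le)⟩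
  have h3 : IsPsh (ball (0 : ℂ) 1) fun w => (((z + w • v).2.2.re : ℝ) : EReal) :=
    Hol.isPsh_re (H := fun w : ℂ => (z + w • v).2.2) (by fun_prop)
  have h4 : ContinuousOn (fun w => pot H (V w) C.i (C.ψ (q w)) + (z + w • v).2.2.re)
      (closedBall (0 : ℂ) 1) := by
    refine ContinuousOn.add (hc.comp (f := fun w => (w, C.ψ (q w))) (continuousOn_id.prodMk
      (C.hol.continuousOn.comp hqd.continuous.continuousOn fun w hw =>
        hqm w (mem_closedBall_zero_iff.1 hw))) fun w hw =>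
          ⟨hw, C.maps (hqm w (mem_closedBall_zero_iff.1 hw))⟩) (by fun_prop)
  have h5 := IsPsh.max1 (isCompact_closedBall (0 : ℂ) 1) (usc_coe h4) (c := 0)
    (by rw [interior_closedBall _ one_ne_zero]
        exact (h2.add h3).congr fun w _ => (EReal.coe_add _ _).symm)
    (fun w hw hw' => by
      rw [interior_closedBall _ one_ne_zero, mem_ball_zero_iff, not_lt] at hw'
      have := h w (le_antisymm (mem_closedBall_zero_iff.1 hw) hw')
      rw [EReal.coe_le_coe_iff, pot_eq]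
      simp only [kap, gam] at this
      linarith) 0 (mem_closedBall_self zero_le_one)
  rw [EReal.coe_le_coe_iff, pot_eq] at h5
  have e0 : z + (0 : ℂ) • v = z := Prod.ext (by simp) (Prod.ext (by ext; simp) (by simp))
  simp only [hq] at h5
  rw [e0] at h5
  simp only [kap, gam]
  linarith

theorem fam {S : DS M} (hG : Geo S H) {a : M → ℝ} (ha : a ∈ S.Q) :
    Fam S (PO p) fun e => Feas S a (PW p r) (C.kap e) (C.gam H e) :=
  fam_of_con S isOpen_PO ha isCompact_PW C.contOn_kap (C.contOn_gam H) (mp hG)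

/-- DISC: the depth functional is psh in centre, shape and depth -/
theorem psh {S : ES M} (hG : Geo S.toDS H) {a : M → ℝ} (ha : a ∈ S.Q) :
    IsPsh (PO p) fun e => ((S.ls.dp (C.F H e.1 e.2.1 e.2.2.re) a : ℝ) : EReal) :=
  (fam hG ha).psh_dep

/-- convexity along holomorphic paths -/
theorem convex_path {S : ES M} (hG : Geo S.toDS H) {a : M → ℝ} (ha : a ∈ S.Q) {Γ : ℂ → Par p}
    (hΓ : Differentiable ℂ Γ) {φ : ℝ → ℝ} (hm : ∀ τ : ℂ, τ.re ∈ Icc (0 : ℝ) 1 → Γ τ ∈ PO p ∧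
      S.ls.dp (C.F H (Γ τ).1 (Γ τ).2.1 (Γ τ).2.2.re) a = φ τ.re) {θ : ℝ} (hθ : θ ∈ Icc (0 : ℝ) 1) :
    φ θ ≤ (1 - θ) * φ 0 + θ * φ 1 := by
  have h1 : IsPsh (strip (Icc 0 1)) fun τ : ℂ => ((φ τ.re : ℝ) : EReal) :=
    (Hol.comp_hol isOpen_PO (psh (C := C) hG ha) hΓ.differentiableOn
      fun τ hτ => (hm τ hτ).1).congr fun τ hτ => by simp only [(hm τ hτ).2]
  have := convex_one (φ := fun s => ((φ s : ℝ) : EReal)) h1 (α := φ 0) (β := φ 1 - φ 0)
    (by simp) (by simp) hθ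
  rw [EReal.coe_le_coe_iff] at this
  linarith

variable (C) in
/-- the pole family at `y` with shape `B` -/
def pf {S : ES M} (hG : Geo S.toDS H) (y : Cn p) (B : Cn p →L[ℂ] Cn p) (s0 : ℝ)
    (h0 : ‖y‖ + Real.exp (-s0 / 2) * ‖B‖ < 2) : PF S.ls where
  s0 := s0
  F s h := C.F H y (rad s • B) h
  cons s hs h := cons S (PO_rad h0 hs.le) h
  shift _ _ _ _ _ hf _ hg := F_shift hf hg
  cvx a ha := by
    refine ⟨(convex_Ioi _).prod convex_univ, fun u hu v hv α β hα hβ hαβ => ?_⟩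
    have hu' : s0 < u.1 := hu.1
    have hv' : s0 < v.1 := hv.1
    have := convex_path (C := C) hG ha
      (Γ := fun τ => (y, Complex.exp (-(u.1 + τ * (v.1 - u.1 : ℝ)) / 2) • B,
        u.2 + τ * (v.2 - u.2 : ℝ))) (by fun_prop)
      (φ := fun θ => S.ls.dp (C.F H y (rad (u.1 + θ * (v.1 - u.1)) • B) (u.2 + θ * (v.2 - u.2))) a)
      (fun τ hτ => by
        have e1 : (u.1 + τ * (v.1 - u.1 : ℝ) : ℂ).re = u.1 + τ.re * (v.1 - u.1) := by simp
        have e2 : (u.2 + τ * (v.2 - u.2 : ℝ) : ℂ).re = u.2 + τ.re * (v.2 - u.2) := by simp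
        refine ⟨?_, by simp only [F_cexp, e1, e2]⟩
        have := PO_rad h0 (s := u.1 + τ.re * (v.1 - u.1)) (by nlinarith [hτ.1, hτ.2])
        rw [norm_smul, ← e1, ← norm_cexp, Complex.norm_real, norm_norm] at this
        simpa only [PO, mem_ofPred_eq, norm_smul] using this) (θ := β) ⟨hβ, by linarith⟩
    obtain rfl : α = 1 - β := by linarith
    simp only [zero_mul, add_zero, one_mul, add_sub_cancel] at this
    simp only [Prod.fst_add, Prod.smul_fst, Prod.snd_add, Prod.smul_snd, smul_eq_mul]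
    rwa [show (1 - β) * u.1 + β * v.1 = u.1 + β * (v.1 - u.1) by ring,
      show (1 - β) * u.2 + β * v.2 = u.2 + β * (v.2 - u.2) by ring]



/-- three circles -/
theorem three {f : M → ℝ} (hf : QP H univ f) {y : Cn p} {B : Cn p →L[ℂ] Cn p} {s₁ s₂ s α β : ℝ}
    (h0 : ‖y‖ + Real.exp (-s₁ / 2) * ‖B‖ < 2) (h1 : f ∈ C.F H y (rad s₁ • B) (α + β * s₁))
    (h2 : f ∈ C.F H y (rad s₂ • B) (α + β * s₂)) (hs1 : s₁ ≤ s) (hs2 : s ≤ s₂) :
    f ∈ C.F H y (rad s • B) (α + β * s) := by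
  refine mem_F.2 fun w hw w' hw' => ?_
  have hm : MapsTo (fun ζ : ℂ => (y + (ζ • B) w, w')) (closedBall 0 (Real.exp (-s₁ / 2)))
      (ball 0 2 ×ˢ ball 0 2 : Set (Cn p × Cn r)) := fun ζ hζ => aff_mem (by
    rw [norm_smul]
    nlinarith [mem_closedBall_zero_iff.1 hζ, norm_nonneg B]) hw hw'
  have hu := Hol.comp_hol (isOpen_ball.prod isOpen_ball) (psh_pot (C := C) hf)
    (φ := fun ζ : ℂ => (y + (ζ • B) w, w')) (by
      simp only [smul_apply]; fun_prop) hm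
  have key : ∀ (t : ℝ), f ∈ C.F H y (rad t • B) (α + β * t) → ∀ ζ : ℂ,
      ‖ζ - 0‖ = Real.exp (-t / 2) →
      ((f (C.pt (y + (ζ • B) w, w')) + C.rho H (y + (ζ • B) w, w') : ℝ) : EReal) ≤
        ((-α + 2 * β * Real.log (Real.exp (-t / 2)) : ℝ) : EReal) := fun t ht ζ hζ => by
    have := mem_F.1 (F_smul_le (a := ζ) (by rw [norm_rad, ← hζ, sub_zero]) ht) w hw w' hw'
    rw [EReal.coe_le_coe_iff, Real.log_exp]
    linarith
  have := hu.annulus 0 (Real.exp_pos (-s₂ / 2)) (R := Real.exp (-s₁ / 2))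
    (fun ζ _ hζ => mem_closedBall_iff_norm.2 hζ) (key s₂ h2) (key s₁ h1) (x := rad s)
    (by rw [sub_zero, norm_rad]; exact Real.exp_le_exp.2 (by linarith))
    (by rw [sub_zero, norm_rad]; exact Real.exp_le_exp.2 (by linarith))
  rw [EReal.coe_le_coe_iff, sub_zero, norm_rad, Real.log_exp] at this
  linarith

/-- Schwarz lemma -/
theorem sch {f : M → ℝ} (hf : QP H univ f) (hf0 : f ≤ 0) {y : Cn p} {B : Cn p →L[ℂ] Cn p}
    {s₁ s₂ s c t : ℝ} (h0 : ‖y‖ + Real.exp (-s₁ / 2) * ‖B‖ ≤ 3 / 2)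
    (h2 : f ∈ C.F H y (rad s₂ • B) (c * s₂ - t)) (ht : c * s₁ + C.bd H ≤ t) (hs1 : s₁ ≤ s)
    (hs2 : s ≤ s₂) : f ∈ C.F H y (rad s • B) (c * s - t) := by
  have h1 : f ∈ C.F H y (rad s₁ • B) (-t + c * s₁) :=
    F_mono (fun w hw => ⟨w, hw, rfl⟩) (by linarith)
      (mem_F_bd (by rwa [norm_smul, norm_rad]) hf0)
  have := three hf (by linarith) h1 (by rwa [neg_add_eq_sub]) hs1 hs2
  rwa [neg_add_eq_sub] at this

/-- nearby centres -/
theorem F_near {x y : Cn p} {s h : ℝ} (hxy : ‖x - y‖ ≤ Real.exp (-s / 2)) :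
    C.F H x (rad (s - 2) • (1 : Cn p →L[ℂ] Cn p)) h ⊆ C.F H y (rad s • 1) h := by
  refine F_mono (fun w hw => ⟨(rad (s - 2))⁻¹ • (y - x + rad s • w), ?_, ?_⟩) le_rfl
  · rw [norm_smul, norm_inv, norm_rad, inv_mul_le_iff₀ (Real.exp_pos _), mul_one]
    have h1 : ‖y - x + rad s • w‖ ≤ 2 * Real.exp (-s / 2) := by
      refine (norm_add_le _ _).trans ?_
      rw [norm_smul, norm_rad, norm_sub_rev]
      nlinarith [Real.exp_pos (-s / 2)]
    have h2 : Real.exp (-(s - 2) / 2) = Real.exp 1 * Real.exp (-s / 2) := by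
      rw [← Real.exp_add]; congr 1; ring
    nlinarith [Real.add_one_le_exp 1, Real.exp_pos (-s / 2)]
  · simp [smul_smul, mul_inv_cancel₀ (rad_ne _), mul_inv_cancel_left₀ (rad_ne _), ← add_assoc]

theorem std {y : Cn p} (hy : ‖y‖ ≤ 1) :
    ‖y‖ + Real.exp (-2 / 2) * ‖(1 : Cn p →L[ℂ] Cn p)‖ ≤ 3 / 2 := by
  have h1 : ‖(1 : Cn p →L[ℂ] Cn p)‖ ≤ 1 := ContinuousLinearMap.norm_id_le
  have h2 : Real.exp (-2 / 2) ≤ 1 / 2 := by
    rw [show (-2 / 2 : ℝ) = -1 by norm_num, Real.exp_neg, one_div]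
    exact inv_anti₀ two_pos (by linarith [Real.add_one_le_exp 1])
  nlinarith [Real.exp_pos (-2 / 2), norm_nonneg (1 : Cn p →L[ℂ] Cn p)]

theorem std' {y : Cn p} (hy : ‖y‖ ≤ 1) :
    ‖y‖ + Real.exp (-2 / 2) * ‖(1 : Cn p →L[ℂ] Cn p)‖ < 2 := (std hy).trans_lt (by norm_num)

variable (C) in
/-- the standard pole family at a point of the closed unit ball -/
def pf1 {S : ES M} (hG : Geo S.toDS H) {y : Cn p} (hy : ‖y‖ ≤ 1) : PF S.ls :=
  C.pf hG y 1 2 (std' hy)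

variable (C H) in
/-- the renormalised pole energy as a function on the chart -/
def Dl (S : ES M) (k c : ℝ) (a : M → ℝ) (y : Cn p) : EReal :=
  ⨅ s ∈ Ioi (2 : ℝ), ((S.ls.dp (C.F H y (rad s • 1) (c * s)) a - kc k p c * s : ℝ) : EReal)


theorem tube {S : ES M} (hG : Geo S.toDS H) {a : M → ℝ} (ha : a ∈ S.Q) (c t : ℝ) :
    Tube (ball (0 : Cn p) 1) (Ioi 2) fun y s =>
      ((S.ls.dp (C.F H y (rad s • 1) (c * s + t)) a : ℝ) : EReal) := by
  refine (Hol.comp_hol isOpen_PO (psh (C := C) hG ha)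
    (φ := fun q : Cn p × ℂ => (q.1, Complex.exp (-q.2 / 2) • 1, c * q.2 + t)) (by fun_prop)
    fun q hq => ?_).congr fun q _ => by simp [F_cexp]
  have := PO_rad (std' (mem_ball_zero_iff.1 hq.1).le) (s := q.2.re) (le_of_lt hq.2)
  rw [norm_smul, ← norm_cexp, Complex.norm_real, norm_norm] at this
  simpa only [PO, mem_ofPred_eq, norm_smul] using this

/-- the renormalised pole energy is psh on the whole chart -/
theorem psh_Dl {S : ES M} (hG : Geo S.toDS H) {a : M → ℝ} (ha : a ∈ S.Q) (k c : ℝ) :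
    IsPsh (ball 0 1) (C.Dl H S k c a) := by
  refine ((tube (C := C) hG ha c 0).legendre isOpen_ball ordConnected_Ioi ⟨3, by norm_num⟩
    (-kc k p c) 0).congr fun y _ => ?_
  simp only [Dl, add_zero, zero_sub, ← EReal.coe_add, neg_mul, ← sub_eq_add_neg]


end PCh

end

end Crest.Agent.X261.Pole
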