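import Crest.Agent.X261.Eq7.Ch_Mg
import Crest.Agent.X261.Pole.Lim
import Crest.Agent.X261.Top.Defs
import Crest.Agent.R281.Thin3_524
import Crest.Agent.X261.BT.MxR
import Crest.Agent.X261.Pole.Plq
import Crest.Agent.X261.Two.Del

-- ▼ part X261/EqW/Fin
section

/-!
# Row 261, package EQV: the theorem of the package
-/

namespace Crest.Agent.X261.EqW

theorem eqvStmt : Eqv.EqvStmt :=
  Eqv.eqv_of (fun _ _ _ _ _ _ _ _ _ _ _ _ _ _ _ _ _ _ T => lv T) Eq7.chStmt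
    fun _ _ _ _ _ _ _ _ _ _ _ _ _ _ _ _ _ _ T => typ T

end Crest.Agent.X261.EqW
end

-- ▼ part X261/Pole/K0
section

/-!
# Row 261, package POLE (helper59), file `K0`: one asymptotic constant for all good points
-/

set_option autoImplicit false

open Set Filter Topology

namespace Crest.Agent.X261.Pole

open Crest.Agent.R275.Geo Crest.Agent.X261.Top

noncomputable section

theorem PF.Asy.unique {M : Type*} {S : LS M} {Y : PF S} {k k' : ℝ} {p : ℕ} (h : Y.Asy k p)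
    (h' : Y.Asy k' p) : k = k' := by
  have := tendsto_nhds_unique (h.tendsto_diff one_pos S.zero_mem 1 0)
    (h'.tendsto_diff one_pos S.zero_mem 1 0)
  simp only [mc, one_pow, mul_one, sub_zero] at this
  exact mul_left_cancel₀ (by positivity) this

/-- the shape of `Pole2.asym` gives `Asy` -/
theorem PF.asy_of {M : Type*} {S : LS M} {Y : PF S} {k : ℝ} {p : ℕ}
    (h : ∀ c₁ : ℝ, ∃ C s₂ : ℝ, ∀ s, s₂ ≤ s → ∀ h, 0 ≤ h → h ≤ c₁ * s →
      |S.dp (Y.F s h) 0 - k * h ^ (p + 1) / s ^ p| ≤ C) : Y.Asy k p := fun c₀ c₁ h0 => by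
  obtain ⟨C, s₂, hC⟩ := h c₁
  exact ⟨C, max s₂ 0, fun s hs t h1 h2 => hC s ((le_max_left _ _).trans hs) t
    ((mul_nonneg h0.le ((le_max_right _ _).trans hs)).trans h1) h2⟩

/-- a locally constant parameter on a connected set -/
theorem exists_k0 {M : Type*} [TopologicalSpace M] {M0 Gd : Set M} (hc : IsPreconnected M0)
    (ho : IsOpen M0) (hG : Dense Gd) {P : M → ℝ → Prop}
    (h : ∀ x₀ ∈ M0, ∃ k, 0 < k ∧ ∀ᶠ x in 𝓝 x₀, x ∈ Gd → P x k)
    (hu : ∀ x ∈ M0, x ∈ Gd → ∀ k k', P x k → P x k' → k = k') :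
    ∃ k, 0 < k ∧ ∀ x ∈ M0, x ∈ Gd → P x k := by
  rcases M0.eq_empty_or_nonempty with rfl | ⟨x₀, hx₀⟩
  · exact ⟨1, one_pos, fun _ h => h.elim⟩
  choose! k k0 hk using h
  have key : ∀ x ∈ M0, ∀ᶠ y in 𝓝 x, y ∈ M0 → k y = k x := fun x hx => by
    filter_upwards [(hk x hx).eventually_nhds] with y hy hy0
    obtain ⟨z, ⟨⟨z1, z2⟩, z3⟩, z4⟩ := mem_closure_iff_nhds.1 (hG y) _
      (inter_mem (inter_mem hy (hk y hy0)) (ho.mem_nhds hy0))
    exact hu z z3 z4 _ _ (z2 z4) (z1 z4)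
  have hcont : ∀ x ∈ M0, k x₀ = k x := fun x hx =>
    hc.induction₂' (fun a b => k a = k b) (fun a ha => by
      filter_upwards [nhdsWithin_le_nhds (key a ha), self_mem_nhdsWithin] with y h1 h2
      exact ⟨(h1 h2).symm, h1 h2⟩) (fun _ _ _ _ _ _ => Eq.trans) hx₀ hx
  exact ⟨k x₀, k0 x₀ hx₀, fun x hx hxG => hcont x hx ▸ (hk x hx).self_of_nhds hxG⟩

/-- the generic part of a tube structure is connected -/
theorem preconn_M0 {n p : ℕ} {M : Type} [TopologicalSpace M] [PreconnectedSpace M] {A : Atl n M}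
    {G : Type} [Group G] [MulAction G M] (𝒯 : Tube A G p) : IsPreconnected 𝒯.M0 := by
  refine R281.Thin3_524.preconnected_of_thin A.cover 𝒯.opn fun i => ?_
  intro z _
  refine (𝒯.thin.thin i z).mono fun v hv => ?_
  have hv' : {c : ℂ | z + c • v ∈ (A.e i).target ∧
    (A.e i).symm (z + c • v) ∈ 𝒯.M0ᶜ}.Countable := hv
  show {c : ℂ | z + c • v ∈ (A.e i).target ∩ (A.e i).symm ⁻¹' (closure 𝒯.M0 \ 𝒯.M0)}.Countable
  refine hv'.mono ?_
  rintro c ⟨hc1, hc2⟩
  exact ⟨hc1, hc2.2⟩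

/-- ONE constant `k0` for the field `asy` -/
theorem asy_all {n p : ℕ} {M : Type} [TopologicalSpace M] [PreconnectedSpace M] {A : Atl n M}
    {G : Type} [Group G] [MulAction G M] (𝒯 : Tube A G p) {κ : Type*} {O : κ → Set M}
    {S : LS M} {Y : κ → M → PF S} (hcov : ∀ x ∈ 𝒯.M0, ∃ C, x ∈ O C)
    (h : ∀ x₀ ∈ 𝒯.M0, ∃ k, 0 < k ∧
      ∀ C, ∀ x ∈ O C, x ∈ 𝒯.T x₀ → x ∉ 𝒯.Bad → (Y C x).Asy k p) :
    ∃ k, 0 < k ∧ ∀ C, ∀ x ∈ O C, x ∈ 𝒯.M0 → x ∉ 𝒯.Bad → (Y C x).Asy k p := by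
  obtain ⟨k, k0, hk⟩ := exists_k0 (P := fun x k => ∀ C, x ∈ O C → (Y C x).Asy k p)
    (preconn_M0 𝒯) 𝒯.opn 𝒯.bad_thin.dense_compl
    (fun x₀ h₀ => by
      obtain ⟨k, k0, hk⟩ := h x₀ h₀
      refine ⟨k, k0, ?_⟩
      filter_upwards [(𝒯.T_opn x₀ h₀).mem_nhds (𝒯.T_mem x₀ h₀)] with x h1 h2 C h3
      exact hk C x h3 h1 h2)
    fun x hx _ k k' h1 h2 => by
      obtain ⟨C, hC⟩ := hcov x hx
      exact (h1 C hC).unique (h2 C hC)
  exact ⟨k, k0, fun C x h1 h2 h3 => hk x h2 h3 C h1⟩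

end

end Crest.Agent.X261.Pole
end

-- ▼ part X261/Pole2/Haar
section

/-!
# X261 / Pole2 (helper9): a Radon measure with vanishing derivatives is a multiple of the volume
-/

set_option autoImplicit false

open Set Filter Topology MeasureTheory Function
open scoped ContDiff

namespace Crest.Agent.X261.Pole2

open Crest.Agent.R275.Geo Crest.Agent.X261.BT

noncomputable section

variable {p : ℕ} {O : Set (Cn p)} {μ : Measure (Cn p)}

theorem haar_swap {Y : Type*} [MeasurableSpace Y] {ν : Measure Y} [SFinite ν] (h : Rad O μ)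
    {L : Set (Cn p)} (hL : IsCompact L) (hLO : L ⊆ O) {F : Y → Cn p → ℝ}
    (h0 : ∀ y w, w ∉ L → F y w = 0)
    (hF : IsFiniteMeasure (μ.restrict L) → Integrable (uncurry F) (ν.prod (μ.restrict L))) :
    ∫ y, ∫ w, F y w ∂μ ∂ν = ∫ w, ∫ y, F y w ∂ν ∂μ := by
  have : IsFiniteMeasure (μ.restrict L) := ⟨by
    rw [Measure.restrict_apply_univ]; exact h.fin L hL hLO⟩
  rw [← setIntegral_eq_integral_of_forall_compl_eq_zero (s := L)
    (f := fun w => ∫ y, F y w ∂ν) fun w hw => by simp [h0 _ w hw], ← integral_integral_swap (hF this)]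
  exact integral_congr_ae (Eventually.of_forall fun y =>
    (setIntegral_eq_integral_of_forall_compl_eq_zero fun w hw => h0 y w hw).symm)

theorem haar_shift (h : Rad O μ)
    (h0 : ∀ φ, ContDiff ℝ ∞ φ → Tst O φ → ∀ v, ∫ w, fderiv ℝ φ w v ∂μ = 0) {φ : Cn p → ℝ}
    (hs : ContDiff ℝ ∞ φ) {K : Set (Cn p)} (hK : IsCompact K) (hz : ∀ w, w ∉ K → φ w = 0)
    {a : Cn p} (ha : ∀ t ∈ Icc (0 : ℝ) 1, ∀ w ∈ K, w + t • a ∈ O) :
    ∫ w, φ (w - a) ∂μ = ∫ w, φ w ∂μ := by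
  have hc : HasCompactSupport φ := HasCompactSupport.intro hK hz
  have hL : IsCompact ((fun q : ℝ × Cn p => q.2 + q.1 • a) '' Icc 0 1 ×ˢ K) :=
    (isCompact_Icc.prod hK).image (by fun_prop)
  have hLO : (fun q : ℝ × Cn p => q.2 + q.1 • a) '' Icc 0 1 ×ˢ K ⊆ O := by
    rintro _ ⟨q, hq, rfl⟩; exact ha _ hq.1 _ hq.2
  have hn : ∀ t ∈ Icc (0 : ℝ) 1, ∀ w, w ∉ (fun q : ℝ × Cn p => q.2 + q.1 • a) '' Icc 0 1 ×ˢ K →
      w - t • a ∉ K := fun t ht w hw h1 => hw ⟨(t, w - t • a), ⟨ht, h1⟩, by simp⟩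
  have ht : ∀ t ∈ Icc (0 : ℝ) 1, Tst O fun w => φ (w - t • a) := fun t ht =>
    Tst.of_cpt (hs.continuous.comp (by fun_prop)) hL hLO fun w hw => hz _ (hn t ht w hw)
  have hd : Continuous fun w => fderiv ℝ φ w a :=
    (hs.continuous_fderiv (by simp)).clm_apply continuous_const
  obtain ⟨C, hC⟩ := hd.bounded_above_of_compact_support (hc.fderiv_apply ℝ a)
  have h1 : ∀ w, ∫ t in Ioc (0 : ℝ) 1, fderiv ℝ φ (w - t • a) a = φ w - φ (w - a) := fun w => by
    have h2 := intervalIntegral.integral_eq_sub_of_hasDerivAt (a := 0) (b := 1)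
      (f := fun t : ℝ => -φ (w - t • a)) (f' := fun t => fderiv ℝ φ (w - t • a) a)
      (fun t _ => by
        have h3 := (hs.differentiable (by simp) (w - t • a)).hasFDerivAt.comp_hasDerivAt t
          (((hasDerivAt_id t).smul_const a).const_sub w)
        simpa using h3.fun_neg)
      ((hd.comp (by fun_prop)).intervalIntegrable _ _)
    rw [intervalIntegral.integral_of_le zero_le_one] at h2
    rw [h2]
    simp only [one_smul, zero_smul, sub_zero]
    ring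
  have h2 := haar_swap (ν := volume.restrict (Ioc (0 : ℝ) 1)) h hL hLO
    (F := fun t w => (Icc (0 : ℝ) 1).indicator (fun t => fderiv ℝ φ (w - t • a) a) t)
    (fun t w hw => indicator_apply_eq_zero.2 fun ht => by
      rw [fderiv_of_notMem_tsupport ℝ fun h3 => hn t ht w hw
        (closure_minimal (s := support φ) (fun x hx => not_not.1 fun h4 => hx (hz x h4)) hK.isClosed h3)]
      rfl)
    fun _ => Integrable.of_bound (C := |C|) (Measurable.aestronglyMeasurable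
      ((hd.comp (by fun_prop : Continuous fun q : ℝ × Cn p => q.2 - q.1 • a)).measurable.indicator
        (measurable_fst measurableSet_Icc))) (Eventually.of_forall fun q =>
      (norm_indicator_le_norm_self (s := Icc (0 : ℝ) 1) (fun t => fderiv ℝ φ (q.2 - t • a) a)
        q.1).trans ((hC _).trans (le_abs_self C)))
  have h3 : ∀ w, ∫ t in Ioc (0 : ℝ) 1, (Icc (0 : ℝ) 1).indicator
      (fun t => fderiv ℝ φ (w - t • a) a) t = φ w - φ (w - a) := fun w => by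
    rw [← h1 w]
    exact setIntegral_congr_fun measurableSet_Ioc fun t ht =>
      indicator_of_mem (Ioc_subset_Icc_self ht) _
  simp only [h3] at h2
  rw [setIntegral_eq_zero_of_forall_eq_zero fun t ht' => ?_] at h2
  · have i0 := h.int (ht 0 ⟨le_rfl, zero_le_one⟩)
    have i1 := h.int (ht 1 ⟨zero_le_one, le_rfl⟩)
    simp only [zero_smul, sub_zero, one_smul] at i0 i1
    rw [integral_sub i0 i1] at h2
    linarith
  · simp only [indicator_of_mem (Ioc_subset_Icc_self ht')]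
    rw [← h0 (fun w => φ (w - t • a)) (hs.comp (contDiff_id.sub contDiff_const))
      (ht t (Ioc_subset_Icc_self ht')) a]
    refine integral_congr_ae (Eventually.of_forall fun w => ?_)
    simp only [fderiv_comp_sub]

theorem haar_symm (hc : Convex ℝ O) (h : Rad O μ)
    (h0 : ∀ φ, ContDiff ℝ ∞ φ → Tst O φ → ∀ v, ∫ w, fderiv ℝ φ w v ∂μ = 0) {φ ψ : Cn p → ℝ}
    (s1 : ContDiff ℝ ∞ φ) (t1 : Tst O φ) (s2 : ContDiff ℝ ∞ ψ) (t2 : Tst O ψ) :
    (∫ w, ψ w ∂μ) * ∫ w, φ w = (∫ w, φ w ∂μ) * ∫ w, ψ w := by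
  have z1 : ∀ w, w ∉ tsupport φ → φ w = 0 := fun _ => image_eq_zero_of_notMem_tsupport
  have z2 : ∀ w, w ∉ tsupport ψ → ψ w = 0 := fun _ => image_eq_zero_of_notMem_tsupport
  have h1 : ∀ a, ∫ w, φ (w - a) * ψ w ∂μ = ∫ w, φ w * ψ (w + a) ∂μ := fun a => by
    have h2 := haar_shift h h0 (φ := fun w => φ w * ψ (w + a))
      (s1.mul (s2.comp (contDiff_id.add contDiff_const))) (a := a)
      (t1.cpt.inter_right ((isClosed_tsupport ψ).preimage (continuous_add_const a)))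
      (fun w hw => by
        by_cases h3 : w ∈ tsupport φ
        · rw [z2 _ fun h4 => hw ⟨h3, h4⟩, mul_zero]
        · rw [z1 _ h3, zero_mul])
      fun t ht w hw => hc.add_smul_mem (t1.sub hw.1) (t2.sub hw.2) ht
    simpa only [sub_add_cancel] using h2
  have hS : IsCompact ((fun q : Cn p × Cn p => q.2 - q.1) '' tsupport φ ×ˢ tsupport ψ) :=
    (t1.cpt.isCompact.prod t2.cpt).image (by fun_prop)
  have h2 := haar_swap (ν := volume) h t2.cpt t2.sub (F := fun a w => φ (w - a) * ψ w)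
    (fun a w hw => by rw [z2 w hw, mul_zero]) fun _ =>
    Continuous.integrable_of_hasCompactSupport
      ((t1.cont.comp (by fun_prop)).mul (t2.cont.comp continuous_snd))
      (HasCompactSupport.intro (hS.prod t2.cpt) fun q hq => by
        by_cases h3 : q.2 ∈ tsupport ψ
        · rw [uncurry, z1 _ fun h4 => hq ⟨⟨(q.2 - q.1, q.2), ⟨h4, h3⟩, by simp⟩, h3⟩, zero_mul]
        · rw [uncurry, z2 _ h3, mul_zero])
  have h3 := haar_swap (ν := volume) h t1.cpt t1.sub (F := fun a w => φ w * ψ (w + a))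
    (fun a w hw => by rw [z1 w hw, zero_mul]) fun _ =>
    Continuous.integrable_of_hasCompactSupport
      ((t1.cont.comp continuous_snd).mul (t2.cont.comp (by fun_prop)))
      (HasCompactSupport.intro (hS.prod t1.cpt) fun q hq => by
        by_cases h3 : q.2 ∈ tsupport φ
        · rw [uncurry, z2 _ fun h4 => hq ⟨⟨(q.2, q.2 + q.1), ⟨h3, h4⟩, by simp⟩, h3⟩, mul_zero]
        · rw [uncurry, z1 _ h3, zero_mul])
  simp only [h1] at h2
  rw [h2] at h3
  simp only [integral_mul_const, integral_const_mul, integral_sub_left_eq_self,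
    integral_add_left_eq_self] at h3
  linarith

theorem exists_haar (hO : IsOpen O) (hc : Convex ℝ O) (h : Rad O μ)
    (h0 : ∀ φ, ContDiff ℝ ∞ φ → Tst O φ → ∀ v, ∫ w, fderiv ℝ φ w v ∂μ = 0) :
    ∃ V, 0 ≤ V ∧ ∀ g, Tst O g → ∫ w, g w ∂μ = V * ∫ w, g w := by
  rcases O.eq_empty_or_nonempty with rfl | ⟨x, hx⟩
  · exact ⟨0, le_rfl, fun g hg => by simp [show g = fun _ => 0 from funext fun w => hg.zero_off id]⟩
  obtain ⟨χ, s, t, h1, h2, -⟩ := exists_cut isCompact_singleton hO (singleton_subset_iff.2 hx)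
  have h3 : 0 < ∫ w, χ w := t.cont.integral_pos_of_hasCompactSupport_nonneg_nonzero t.cpt h2
    (by rw [h1.self_of_nhdsSet x rfl]; exact one_ne_zero)
  have h4 : 0 ≤ (∫ w, χ w ∂μ) / ∫ w, χ w := div_nonneg (integral_nonneg h2) h3.le
  refine ⟨_, h4, fun g hg => ?_⟩
  obtain ⟨K, hK, hKO, H⟩ := exists_smooth_near hO hg
  set V := (∫ w, χ w ∂μ) / ∫ w, χ w with hV
  refine sub_eq_zero.1 (abs_nonpos_iff.1 (le_of_forall_pos_le_add fun ε hε => ?_))
  have hp : 0 < μ.real K + V * volume.real K + 1 := by positivity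
  obtain ⟨g', s', t', a1, a2⟩ := H _ (div_pos hε hp)
  have hv : Rad univ (volume : Measure (Cn p)) :=
    ⟨by rw [compl_univ, measure_empty], fun K hK _ => hK.measure_lt_top⟩
  have a3 := h.abs_int_le hK hKO (fun z _ => a1 z) a2
  have a4 := hv.abs_int_le hK (subset_univ _) (fun z _ => a1 z) a2
  rw [integral_sub (h.int hg) (h.int t')] at a3
  rw [integral_sub (hv.int (hg.mono (subset_univ _))) (hv.int (t'.mono (subset_univ _)))] at a4
  have a5 : ∫ w, g' w ∂μ = V * ∫ w, g' w := by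
    rw [hV, div_mul_eq_mul_div, eq_div_iff h3.ne', haar_symm hc h h0 s t s' t']
  have a6 : ∫ w, g w ∂μ - V * ∫ w, g w =
      (∫ w, g w ∂μ - ∫ w, g' w ∂μ) - V * ((∫ w, g w) - ∫ w, g' w) := by rw [a5]; ring
  rw [a6, zero_add]
  refine (abs_sub _ _).trans ?_
  rw [abs_mul, abs_of_nonneg h4]
  refine (add_le_add a3 (mul_le_mul_of_nonneg_left a4 h4)).trans ?_
  rw [mul_left_comm, ← mul_add, div_mul_eq_mul_div, div_le_iff₀ hp]
  nlinarith

end

end Crest.Agent.X261.Pole2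
end

-- ▼ part X261/Pole/Ray

/-!
# Row 261, package POLE (helper59), file `Ray`: the bound (R)

A ray built from near optimal poles at the fixed point `y` is admissible for `del X Y` at every
point `x` with `‖x - y‖ ≤ e^{-s/2}`.
-/

set_option autoImplicit false

open Set Filter Topology Metric Finset

namespace Crest.Agent.X261.Pole

open Crest.Agent.X261.Two Crest.Agent.X261.BT
open Crest.Agent.R275.Geo
open Crest.Agent.R281.Kp_487 (KP)

noncomputable section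

section abs

variable {M : Type*} {S : LS M} {X Y : PF S} {k : ℝ} {p : ℕ}

theorem mc_mono (hk : 0 ≤ k) (p : ℕ) {c c' : ℝ} (hc : 0 ≤ c) (h : c ≤ c') :
    mc k p c ≤ mc k p c' := by
  unfold mc; gcongr

/-- near optimal poles at arbitrarily small radius -/
theorem exists_opt (hY : Y.Asy k p) {c ε : ℝ} (hc : 0 < c) (hε : 0 < ε) {R : Set (M → ℝ)}
    (h : ∀ᶠ s in atTop, ∀ f ∈ S.Q, f ∈ Y.F s (c * s) → f ∈ R) :
    ∃ G ∈ S.Q, Y.cst k p c G ≤ ε ∧ G ∈ R := by
  obtain ⟨s, h1, h2, h3⟩ := (h.and ((eventually_gt_atTop Y.s0).and ((hY.tendsto0 hc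
    S.zero_mem).eventually (gt_mem_nhds (lt_add_of_pos_right _ (half_pos hε)))))).exists
  obtain ⟨G, g1, -, g2, g3⟩ := (Y.cons s h2 (c * s)).near S.zero_mem (half_pos hε)
  refine ⟨G, g1, ?_, h1 G g1 g2⟩
  have := hY.dl_le_of_mem hc g1 h2 g2
  simp only [PF.Φ, PF.cst, sub_self, mul_zero, sub_zero] at h3 this ⊢
  linarith

/-- the ray -/
def rr (G : ℕ → M → ℝ) (d : ℝ) : ℕ → M → ℝ
  | 0 => 0
  | i + 1 => G (i + 1) ⊔ fun x => rr G d i x - d

variable {G : ℕ → M → ℝ} {d : ℝ}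

theorem rr_mem (hG : ∀ i, G i ∈ S.Q) (hd : 0 ≤ d) (i : ℕ) : rr G d i ∈ S.Q := by
  induction i with
  | zero => exact S.zero_mem
  | succ i ih => exact S.maxs_mem _ ih _ (hG _) d hd

theorem rr_le (i j : ℕ) (x : M) : rr G d i x ≤ rr G d (i + j) x + j * d := by
  induction j with
  | zero => simp
  | succ j ih =>
    have : rr G d (i + j) x - d ≤ rr G d (i + (j + 1)) x := le_max_right _ _
    push_cast
    linarith

theorem le_rr {i : ℕ} (hi : 0 < i) : G i ≤ rr G d i := by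
  obtain ⟨i, rfl⟩ := Nat.exists_eq_succ_of_ne_zero hi.ne'
  exact le_sup_left

theorem rr_F {s b : ℝ} (hs : X.s0 < s) (h0 : (0 : M → ℝ) ∈ X.F s (-b)) {N : ℕ}
    (hG : ∀ i, 0 < i → i ≤ N → G i ∈ X.F s (i * d - b)) {i : ℕ} (hi : i ≤ N) :
    rr G d i ∈ X.F s (i * d - b) := by
  induction i with
  | zero => simpa [rr] using h0
  | succ i ih =>
    refine (X.cons s hs _).sup _ (hG _ i.succ_pos hi) _ ?_
    have := X.shift s hs _ (-d) _ (ih (by omega)) (fun x => rr G d i x - d) fun x => le_rfl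
    rwa [show (i : ℝ) * d - b - -d = (i + 1 : ℕ) * d - b by push_cast; ring] at this

theorem D_rr (hY : Y.Asy k p) {δ s ε : ℝ} (hδ : 0 < δ) (hs : 0 ≤ s) (hG : ∀ i, G i ∈ S.Q)
    (hε : ∀ i : ℕ, 0 < i → Y.cst k p (i * δ) (G i) ≤ ε) (i : ℕ) :
    S.D (rr G (δ * s) i) ≤ i * ε + (kc k p (i * δ) + mc k p (i * δ) * δ) * s := by
  have hk := hY.k_nonneg
  have hd : 0 ≤ δ * s := by positivity
  induction i with
  | zero =>
    have := kc_nonneg hk p (le_refl 0)
    have := mc_nonneg hk p (le_refl 0)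
    simp only [rr, S.D_zero, Nat.cast_zero, zero_mul, zero_add]
    positivity
  | succ i ih =>
    have hc : (0 : ℝ) < (i + 1 : ℕ) * δ := by positivity
    have hw := rr_mem hG hd (i + 1)
    have h1 := lam_le hY hc hw hd
    have h2 := (hY.cst_anti hc (hG _) hw (le_rr i.succ_pos)).trans (hε _ i.succ_pos)
    have h3 := S.anti _ (rr_mem hG hd i) _ (sh_mem hw hd)
      (le_sh hw hd (rr_mem hG hd i) fun x => by simpa using rr_le (G := G) (d := δ * s) i 1 x)
    have h4 := mul_le_mul_of_nonneg_right (kc_tangent hk p (c := i * δ) (c' := (i + 1 : ℕ) * δ)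
      (by positivity) hc.le) hs
    rw [show ((i + 1 : ℕ) : ℝ) * δ - i * δ = δ by push_cast; ring] at h4
    rw [show ((i + 1 : ℕ) : ℝ) * ε = i * ε + ε by push_cast; ring]
    linarith

theorem ray_aux (hX : X.Asy k p) (hY : Y.Asy k p) {l : ℝ} (hl : 0 < l) {m : ℕ} (hm : 0 < m)
    {s b : ℝ} (hsX : X.s0 < s) (hsY : Y.s0 < s) (hs : 0 ≤ s) (hb : 0 ≤ b)
    (h0X : (0 : M → ℝ) ∈ X.F s (-b)) (h0Y : (0 : M → ℝ) ∈ Y.F s (-b))
    (h : ∀ c, 0 < c → c ≤ l → ∀ᶠ s₂ in atTop, ∀ f ∈ S.Q, f ∈ Y.F s₂ (c * s₂) →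
      f ∈ X.F s (c * s - b) ∧ f ∈ Y.F s (c * s - b)) {r : ℕ} (hr : 0 < r) {ε : ℝ} (hε : 0 < ε) :
    del X Y k p l m (l * s) ≤ mc k p l / m * (l * s) - Ph X k p l m +
      ((m + 1) * mc k p l * b - Y.dl k p l 0) + (mc k p l * l * s / r + m * (m * r + 1) * ε) := by
  have hk := hY.k_nonneg
  have hm' : (0 : ℝ) < m := by exact_mod_cast hm
  have hr' : (0 : ℝ) < r := by exact_mod_cast hr
  set δ : ℝ := l / (m * r) with hδ
  have hδ0 : 0 < δ := by positivity
  have hN : ((m * r : ℕ) : ℝ) * δ = l := by rw [hδ]; push_cast; field_simp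
  have hd : 0 ≤ δ * s := by positivity
  have hT : 0 ≤ l * s := by positivity
  have key : ∀ i : ℕ, ∃ G ∈ S.Q, 0 < i → Y.cst k p (i * δ) G ≤ ε ∧ (i ≤ m * r →
      G ∈ X.F s (i * (δ * s) - b) ∧ G ∈ Y.F s (i * (δ * s) - b)) := fun i => by
    rcases i.eq_zero_or_pos with rfl | hi
    · exact ⟨0, S.zero_mem, fun h => absurd h (lt_irrefl _)⟩
    have hc : (0 : ℝ) < i * δ := by positivity
    obtain ⟨G, g1, g2, g3⟩ := exists_opt hY hc hε (R := {G | i ≤ m * r →
        G ∈ X.F s (i * (δ * s) - b) ∧ G ∈ Y.F s (i * (δ * s) - b)}) (by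
      by_cases hi' : i ≤ m * r
      · filter_upwards [h _ hc (hN ▸ mul_le_mul_of_nonneg_right (by exact_mod_cast hi') hδ0.le)]
          with s₂ e f f1 f2 _
        rw [← mul_assoc]; exact e f f1 f2
      · exact Eventually.of_forall fun _ _ _ _ h => absurd h hi')
    exact ⟨G, g1, fun _ => ⟨g2, g3⟩⟩
  choose G hG hG' using key
  have FX := fun i => rr_F (N := m * r) (i := i) hsX h0X fun i h1 h2 => ((hG' i h1).2 h2).1
  have FY := rr_F (N := m * r) hsY h0Y (fun i h1 h2 => ((hG' i h1).2 h2).2) le_rfl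
  have DD := D_rr hY hδ0 hs hG fun i hi => (hG' i hi).1
  have ha := rr_mem hG hd (m * r)
  set a := rr G (δ * s) (m * r) with ha'
  have hadm : a ∈ Adm S (l * s) := ⟨ha, fun x => by
    have := rr_le (G := G) (d := δ * s) 0 (m * r) x
    rw [zero_add, ← mul_assoc, hN] at this
    simp only [rr, Pi.zero_apply] at this
    linarith⟩
  have hj : ∀ j ∈ range m, Y.cst k p (lev l m j) (S.P 0 a (j * (l * s / m))) ≤ ε ∧
      X.cst k p (lev l m j) (S.P 0 a (j * (l * s / m))) ≤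
        m * r * ε + mc k p l * (δ * s + b) - X.dl k p (lev l m j) 0 := fun j hj => by
    have hj := mem_range.1 hj
    obtain ⟨q, rfl⟩ : ∃ q, m = q + j := ⟨m - j, by omega⟩
    have hq : 0 < q * r := Nat.mul_pos (by omega) hr
    have hqm : q * r ≤ (q + j) * r := Nat.mul_le_mul_right _ (by omega)
    have e1 : lev l (q + j) j = (q * r : ℕ) * δ := by
      rw [lev, hδ]; push_cast at hm' ⊢; field_simp; ring
    have hc := lev_pos hl hj
    have hcl := lev_le hl (q + j) j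
    have ht := step_nonneg hT (q + j) j
    have hR := rr_mem hG hd (q * r)
    have h1 : rr G (δ * s) (q * r) ≤ S.P 0 a (j * (l * s / (q + j : ℕ))) :=
      le_sh ha ht hR fun x => by
        have := rr_le (G := G) (d := δ * s) (q * r) (j * r) x
        rw [← add_mul] at this
        refine this.trans_eq (congrArg (a x + ·) ?_)
        rw [hδ]; push_cast; field_simp
    refine ⟨(hY.cst_anti hc (hG _) (sh_mem ha ht) ((le_rr hq).trans h1)).trans
      (e1 ▸ (hG' _ hq).1), (hX.cst_anti hc hR (sh_mem ha ht) h1).trans ?_⟩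
    have h2 := hX.dl_le_of_mem hc hR hsX (FX _ hqm)
    have h3 := DD (q * r)
    rw [← mul_assoc, ← e1] at h2
    rw [← e1] at h3
    have h4 := mul_le_mul_of_nonneg_right (mc_mono hk p hc.le hcl) (add_nonneg hd hb)
    have h5 : ((q * r : ℕ) : ℝ) * ε ≤ (q + j : ℕ) * r * ε :=
      mul_le_mul_of_nonneg_right (by exact_mod_cast hqm) hε.le
    unfold PF.cst
    linarith
  have e1 := sum_le_sum fun j h => (hj j h).1
  have e2 := sum_le_sum fun j h => (hj j h).2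
  rw [sum_const, card_range, nsmul_eq_mul] at e1
  rw [sum_sub_distrib, sum_const, card_range, nsmul_eq_mul] at e2
  have e3 := hY.dl_le hl S.zero_mem hsY (l * s - b)
  rw [← mul_assoc, hN] at FY
  have e4 : Y.Φ 0 s (l * s - b) ≤ S.D a := LS.dp_le ha (S.nonpos a ha) FY
  have e5 := mul_le_mul_of_nonneg_right (kap_le (p := p) hk hl hm) hT
  rw [add_mul, show kc k p l / l * (l * s) = kc k p l * s by field_simp] at e5
  have e6 := del_le hX hY hl hm hT hadm
  have e7 : m * (mc k p l * (δ * s)) = mc k p l * l * s / r := by rw [hδ]; field_simp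
  unfold br Two.sc at e6
  unfold Ph
  linarith

/-- (R), abstract form -/
theorem ray_abs (hX : X.Asy k p) (hY : Y.Asy k p) {l : ℝ} (hl : 0 < l) {m : ℕ} (hm : 0 < m)
    {s b : ℝ} (hsX : X.s0 < s) (hsY : Y.s0 < s) (hs : 0 ≤ s) (hb : 0 ≤ b)
    (h0X : (0 : M → ℝ) ∈ X.F s (-b)) (h0Y : (0 : M → ℝ) ∈ Y.F s (-b))
    (h : ∀ c, 0 < c → c ≤ l → ∀ᶠ s₂ in atTop, ∀ f ∈ S.Q, f ∈ Y.F s₂ (c * s₂) →
      f ∈ X.F s (c * s - b) ∧ f ∈ Y.F s (c * s - b)) :
    del X Y k p l m (l * s) ≤ mc k p l / m * (l * s) - Ph X k p l m +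
      ((m + 1) * mc k p l * b - Y.dl k p l 0) := by
  refine le_of_forall_pos_le_add fun η hη => ?_
  obtain ⟨r, hr⟩ := exists_nat_gt (mc k p l * l * s / (η / 2))
  have hμ := mc_nonneg hY.k_nonneg p hl.le
  have hr' : (0 : ℝ) < r := lt_of_le_of_lt (by positivity) hr
  have hm' : (0 : ℝ) < m := by exact_mod_cast hm
  have := ray_aux hX hY hl hm hsX hsY hs hb h0X h0Y h (r := r) (by exact_mod_cast hr')
    (ε := η / 2 / (m * (m * r + 1))) (by positivity)
  rw [mul_div_cancel₀ _ (by positivity)] at this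
  rw [div_lt_comm₀ (by positivity) hr'] at hr
  linarith

end abs

namespace PCh

variable {n : ℕ} {M : Type} [TopologicalSpace M] {A : Atl n M} {p r : ℕ} {C : PCh A p r}
  {H : KP A} {S : ES M}

theorem std_rad {y : Cn p} (hy : ‖y‖ ≤ 1) {s : ℝ} (hs : 2 ≤ s) :
    ‖y‖ + ‖rad s • (1 : Cn p →L[ℂ] Cn p)‖ ≤ 3 / 2 := by
  have := std hy
  have h2 : Real.exp (-s / 2) ≤ Real.exp (-2 / 2) := Real.exp_le_exp.2 (by linarith)
  rw [norm_smul, norm_rad]
  nlinarith [norm_nonneg (1 : Cn p →L[ℂ] Cn p)]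

/-- (R) for any two pole families carried by the round constraints of a plaque chart -/
theorem ray' (hG : Geo S.toDS H) {X Y : PF S.ls} {x y : Cn p} (hx : ‖x‖ ≤ 1) (hy : ‖y‖ ≤ 1)
    (hXF : ∀ s h, X.F s h = C.F H x (rad s • 1) h) (hYF : ∀ s h, Y.F s h = C.F H y (rad s • 1) h)
    {k : ℝ} (hX : X.Asy k p) (hY : Y.Asy k p) {l : ℝ} (hl : 0 < l) {m : ℕ} (hm : 0 < m) {s : ℝ}
    (hsX : X.s0 < s) (hsY : Y.s0 < s) (hs : 4 ≤ s) (hxy : ‖x - y‖ ≤ Real.exp (-s / 2)) :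
    del X Y k p l m (l * s) ≤ mc k p l / m * (l * s) - Ph X k p l m +
      ((m + 1) * mc k p l * (4 * l + C.bd H) - Y.dl k p l 0) := by
  have hb := C.bd_nonneg H
  have h0 : ∀ z : Cn p, ‖z‖ ≤ 1 → (0 : M → ℝ) ∈ C.F H z (rad s • 1) (-(4 * l + C.bd H)) :=
    fun z hz => F_mono (fun w hw => ⟨w, hw, rfl⟩) (by linarith)
      (mem_F_bd (std_rad hz (by linarith)) le_rfl)
  refine ray_abs hX hY hl hm hsX hsY (by linarith) (by linarith) (hXF _ _ ▸ h0 x hx)
    (hYF _ _ ▸ h0 y hy) fun c hc hcl => ?_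
  filter_upwards [eventually_ge_atTop s] with s₂ h2 f hf hF
  rw [hYF] at hF
  rw [hXF, hYF]
  have key : ∀ s', 2 ≤ s' → s' ≤ s₂ →
      f ∈ C.F H y (rad s' • 1) (c * s' - (c * 2 + C.bd H)) := fun s' h3 h4 =>
    sch (hG.qp f hf) (S.nonpos f hf) (std hy)
      (F_mono (fun w hw => ⟨w, hw, rfl⟩) (by linarith) hF) le_rfl h3 h4
  exact ⟨F_mono (fun w hw => ⟨w, hw, rfl⟩) (by linarith) (F_near (by rwa [norm_sub_rev])
      (key (s - 2) (by linarith) (by linarith))),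
    F_mono (fun w hw => ⟨w, hw, rfl⟩) (by linarith) (key s (by linarith) h2)⟩

/-- (R), the shape of `EnP.Dat.ray` -/
theorem ray (hG : Geo S.toDS H) {y : Cn p} (hy : ‖y‖ ≤ 1) {k : ℝ} (hY : (C.pf1 hG hy).Asy k p)
    {l : ℝ} (hl : 0 < l) {m : ℕ} (hm : 0 < m) : ∃ C₀ : ℝ, ∀ᶠ s in atTop, ∀ (x : Cn p)
      (hx : ‖x‖ ≤ 1), (C.pf1 hG hx).Asy k p → ‖x - y‖ ≤ Real.exp (-s / 2) →
      del (C.pf1 hG hx) (C.pf1 hG hy) k p l m (l * s) ≤
        mc k p l / m * (l * s) - Ph (C.pf1 hG hx) k p l m + C₀ := by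
  refine ⟨_, (eventually_ge_atTop 4).mono fun s hs x hx hX hxy =>
    ray' hG hx hy (fun _ _ => rfl) (fun _ _ => rfl) hX hY hl hm ?_ ?_ hs hxy⟩ <;>
  exact lt_of_lt_of_le (show (2 : ℝ) < 4 by norm_num) hs

end PCh

end

end Crest.Agent.X261.Pole
private theorem rz_c3c2a83f9d : type_of% @_root_.Crest.Agent.X261.Pole.rr.eq_def := @_root_.Crest.Agent.X261.Pole.rr.eq_def -- L44
private theorem rz_b943f565ac : type_of% @_root_.Crest.Agent.X261.Pole.rr.eq_1 := @_root_.Crest.Agent.X261.Pole.rr.eq_1 -- L44
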