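import Crest.Agent.X261.Pole2.Defs
import Crest.Agent.X261.Pole2.Rk
import Crest.Agent.X261.Pole.Ray_Mg
import Crest.Agent.X261.Law.Fld_Mg
import Crest.Agent.X261.Pole2.Ene

-- ▼ part X261/Pole2/Vol
section

/-!
# Row 261, package Pole2 (helper32), file `Vol`: the fibre volume of a tube is constant

`nu H T π = dd^c|π_1|² ∧ … ∧ dd^c|π_p|² ∧ ω^{n-p}`; `TB.exists_push` : `π_* nu = V · Lebesgue`;
`exists_vol` : the Monge-Ampere measure of `f ∘ π`.
-/

set_option autoImplicit false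
set_option linter.unusedSectionVars false

open Set Filter Topology Complex MeasureTheory Metric Function
open scoped ContDiff Matrix ComplexConjugate ComplexOrder

namespace Crest.Agent.X261.Pole2

open Crest.Agent.R275.Geo
open Crest.Agent.R273 Crest.Agent.R273.Hess_333 Crest.Agent.R273.HessB_333
open Crest.Agent.R273.Map_835 (mt mt_apply)
open Crest.Agent.R281.Kp_487 (KP pot wt_contDiffAt)
open Crest.Agent.R281.ThnM_280 (Crit surj_of_not_crit)
open Crest.Agent.R281.Rich_710 (cj qf_hess)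
open Crest.Agent.R257.HoB_843 (lvE lvE_comp)
open Crest.Agent.R257.Glue2_101 (lvE_add lvE_const_mul lvE_const diff_fd)
open Crest.Agent.R273.YauDefs_635 (inC)
open Crest.Agent.X261.BT Crest.Agent.X261.Top

noncomputable section

variable {n p : ℕ}

/-! ### calculus on the base -/

/-- `|w_k|²` -/
def nq (k : Fin p) (w : Cn p) : ℝ := ‖w k‖ ^ 2

theorem nq_smooth (k : Fin p) : ContDiff ℝ ∞ (nq k) :=
  (((EuclideanSpace.proj k : Cn p →L[ℂ] ℂ).contDiff).restrict_scalars ℝ).norm_sq ℝ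

theorem hess_nq (k : Fin p) (w : Cn p) :
    hess (nq k) w = Matrix.vecMulVec (Pi.single k 1) (star (Pi.single k (1 : ℂ))) := by
  ext a b
  have e : nq k = FS_333.sq fun (w : Cn p) (_ : Fin 1) => w k := funext fun w => by
    simp [nq, FS_333.sq]
  rw [e, FS_333.hess_sq isOpen_univ (fun _ => diff_coord k) (mem_univ w)]
  simp [fderiv_coord, Matrix.vecMulVec_apply, Pi.single_apply, eq_comm]

theorem sp_nq (k : Fin p) : Sp univ (nq k) :=
  ⟨nq_smooth k, fun w _ => hess_nq k w ▸ Matrix.posSemidef_vecMulVec_self_star _⟩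

theorem pb_nq (J : Matrix (Fin p) (Fin n) ℂ) (k : Fin p) (w : Cn p) :
    pb J (hess (nq k) w) = rk J k := by
  rw [pb_sum, hess_nq, Finset.sum_eq_single k, Finset.sum_eq_single k]
  · simp [Matrix.vecMulVec_apply, rk]
  · intro b _ hb; simp [Matrix.vecMulVec_apply, hb]
  · simp
  · intro a _ ha; simp [Matrix.vecMulVec_apply, ha]
  · simp

/-- `∂_k ∂_{k̄}` -/
def lap (k : Fin p) (f : Cn p → ℝ) (w : Cn p) : ℝ := lvE f w (EuclideanSpace.single k 1)

theorem hess_kk {f : Cn p → ℝ} (hf : ContDiff ℝ ∞ f) (k : Fin p) (w : Cn p) :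
    hess f w k k = (lap k f w : ℂ) := by
  have h1 := qf_hess (z := w) hf.contDiffAt (Pi.single k 1)
  have h2 : cj (Pi.single k (1 : ℂ)) = EuclideanSpace.single k 1 := by
    ext a; simp [cj, Pi.single_apply]
  rw [h2, SerD_945.qf] at h1
  rw [lap, ← h1, ← (hess_herm (z := w) hf.contDiffAt).coe_re_apply_self]
  simp

theorem lap_cont {f : Cn p → ℝ} (hf : ContDiff ℝ ∞ f) (k : Fin p) : Continuous (lap k f) := by
  have h1 : lap k f = fun w => (hess f w k k).re := funext fun w => by rw [hess_kk hf, ofReal_re]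
  rw [h1]
  exact continuous_re.comp (continuous_iff_continuousAt.2 fun w =>
    (contDiffAt_hess hf.contDiffAt k k).continuousAt)

theorem lap_zero {f : Cn p → ℝ} (k : Fin p) {w : Cn p} (hw : w ∉ tsupport f) : lap k f w = 0 := by
  rw [lap, R257.HoB_843.lvE_congr (notMem_tsupport_iff_eventuallyEq.1 hw)]
  exact lvE_const 0 _ _

theorem lvE_lin (l : Cn p →L[ℝ] ℝ) (w v : Cn p) : lvE l w v = 0 := by
  have e : fderiv ℝ l = fun _ => l := funext fun _ => l.fderiv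
  unfold lvE
  rw [e, fderiv_const_apply]
  simp

theorem sp_lin (l : Cn p →L[ℝ] ℝ) : Sp univ l :=
  ⟨l.contDiff, fun w _ => (psd_iff l.contDiff.contDiffAt).2 fun v => (lvE_lin l w v).ge⟩

theorem lvE_lin_mul (l : Cn p →L[ℝ] ℝ) {φ : Cn p → ℝ} (hφ : ContDiff ℝ ∞ φ) (w v : Cn p) :
    lvE (fun x => l x * φ x) w v = l w * lvE φ w v +
      (l v * fderiv ℝ φ w v + l (I • v) * fderiv ℝ φ w (I • v)) / 2 := by
  have hd : ∀ x, HasFDerivAt φ (fderiv ℝ φ x) x := fun x =>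
    (hφ.differentiable (by simp) x).hasFDerivAt
  have e : fderiv ℝ (fun x => l x * φ x) = fun x => l x • fderiv ℝ φ x + φ x • l :=
    funext fun x => (l.hasFDerivAt.mul (hd x)).fderiv
  have e2 := (l.hasFDerivAt.smul (diff_fd (z := w) hφ.contDiffAt).hasFDerivAt).add
    ((hd w).smul_const l)
  unfold lvE
  rw [e]
  erw [e2.fderiv]
  simp only [_root_.add_apply, _root_.smul_apply, ContinuousLinearMap.smulRight_apply, smul_eq_mul]
  ring

theorem exists_rad {K : Set (Cn p)} (hK : IsClosed K) (h : K ⊆ ball 0 1) :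
    ∃ r < (1 : ℝ), ∀ w ∈ K, ‖w‖ ≤ r := by
  obtain ⟨r, h1, h2⟩ := exists_lt_subset_ball hK h
  exact ⟨r, h1, fun w hw => (mem_ball_zero_iff.1 (h2 hw)).le⟩

theorem psd_of_lvE_le {f : Cn p → ℝ} (hf : ContDiff ℝ ∞ f) {w : Cn p} {Λ : ℝ}
    (h : ∀ v, lvE f w v ≤ Λ * ‖v‖ ^ 2) : ((Λ : ℂ) • (1 : MC p) - hess f w).PosSemidef := by
  have h1 : ContDiff ℝ ∞ fun x : Cn p => Λ * ‖x‖ ^ 2 := contDiff_const.mul sm_nsq
  have h2 : ContDiff ℝ ∞ fun x : Cn p => -1 * f x := contDiff_const.mul hf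
  have h3 := (psd_iff (z := w) (h1.add h2).contDiffAt).2 fun v => by
    rw [lvE_add h1.contDiffAt h2.contDiffAt, lvE_const_mul sm_nsq.contDiffAt, lvE_nsq,
      lvE_const_mul hf.contDiffAt]
    linarith [h v]
  rw [hess_add h1.contDiffAt h2.contDiffAt, hess_const_mul _ sm_nsq.contDiffAt, hess_nsq,
    hess_const_mul _ hf.contDiffAt] at h3
  simpa [sub_eq_add_neg] using h3

/-! ### comparison of smooth mixed measures -/

variable {M : Type} [TopologicalSpace M] [T2Space M] {A : Atl n M} [MeasurableSpace M]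
  [BorelSpace M] [Countable A.ι]

/-- a finite partition of unity on `K` -/
structure Pt (A : Atl n M) (U K : Set M) (t : Finset A.ι) (ψ : A.ι → M → ℝ) : Prop where
  tst : ∀ i, Tst (U ∩ (A.e i).source) (ψ i)
  nn : ∀ i x, 0 ≤ ψ i x
  one : ∀ x ∈ K, ∑ i ∈ t, ψ i x = 1

theorem exists_pt (A : Atl n M) {U K : Set M} (hK : IsCompact K) (hU : IsOpen U) (hKU : K ⊆ U) :
    ∃ t ψ, Pt A U K t ψ := by
  obtain ⟨t, ψ, -, h1, h2, -, h3⟩ := exists_partM A hK hU hKU
  exact ⟨t, ψ, h1, fun i x => (h2 i x).1, h3.self_of_nhdsSet⟩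

/-- smooth quasi-psh tuples -/
structure SQ (U : Set M) (H : Fin n → KP A) (φ : Fin n → M → ℝ) : Prop where
  qp : ∀ k, QP (H k) U (φ k)
  sm : ∀ k i, ∀ z ∈ chU A U i, ContDiffAt ℝ ∞ (inC A i (φ k)) z

/-- the density in the chart `i` -/
def dn (H : Fin n → KP A) (φ : Fin n → M → ℝ) (i : A.ι) (z : Cn n) : ℝ :=
  mh (fun k => pot (H k) (φ k) i) z

section dens

variable {U K : Set M} {H H' : Fin n → KP A} {φ φ' : Fin n → M → ℝ} {χ χ' : M → ℝ}
  {t : Finset A.ι} {ψ : A.ι → M → ℝ}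

theorem SQ.cont_dn (h : SQ U H φ) (i : A.ι) : ContinuousOn (dn H φ i) (chU A U i) :=
  fun z hz => (contDiffAt_mh fun k =>
    (wt_contDiffAt (H k) i hz.1).add (h.sm k i z hz)).continuousAt.continuousWithinAt

theorem SQ.int (h : SQ U H φ) (hU : IsOpen U) (P : Pt A U K t ψ) (hχ : Tst U χ)
    (h0 : ∀ x ∉ K, χ x = 0) : ∫ x, χ x ∂MX U H φ =
      ∑ i ∈ t, ∫ z, BT.rd A i (fun x => ψ i x * χ x) z * dn H φ i z := by
  rw [MX_eq, (MX_cmp hU h.qp).int_part (t := t) P.tst hχ.cont.continuousOn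
    fun x hx => P.one x (not_not.1 fun h1 => hx (h0 x h1))]
  refine Finset.sum_congr rfl fun i _ => ?_
  exact ma_smooth (isOpen_chU hU i) (fun k => (h.qp k).cp i)
    (fun k z hz => (wt_contDiffAt (H k) i hz.1).add (h.sm k i z hz))
    ((P.tst i).mul_on (hU.inter (A.e i).open_source) hχ.cont.continuousOn).rd

theorem int_le_of_dn (h : SQ U H φ) (h' : SQ U H' φ') (hU : IsOpen U) (P : Pt A U K t ψ)
    (hχ : Tst U χ) (h0 : ∀ x ∉ K, χ x = 0) (hχ' : Tst U χ') (h0' : ∀ x ∉ K, χ' x = 0)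
    (hle : ∀ i ∈ t, ∀ x ∈ tsupport (ψ i),
      χ x * dn H φ i (A.e i x) ≤ χ' x * dn H' φ' i (A.e i x)) :
    ∫ x, χ x ∂MX U H φ ≤ ∫ x, χ' x ∂MX U H' φ' := by
  rw [h.int hU P hχ h0, h'.int hU P hχ' h0']
  have hi : ∀ {H : Fin n → KP A} {φ : Fin n → M → ℝ} {χ : M → ℝ}, SQ U H φ → Tst U χ → ∀ i,
      Integrable fun z => BT.rd A i (fun x => ψ i x * χ x) z * dn H φ i z := fun h hχ i => by
    have := ((P.tst i).mul_on (hU.inter (A.e i).open_source) hχ.cont.continuousOn).rd.mul_on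
      (isOpen_chU hU i) (h.cont_dn i)
    exact this.cont.integrable_of_hasCompactSupport this.cpt
  refine Finset.sum_le_sum fun i hit => integral_mono (hi h hχ i) (hi h' hχ' i) fun z => ?_
  by_cases hz : z ∈ (A.e i).target
  · simp only [rd_of_mem hz, mul_assoc]
    by_cases h1 : (A.e i).symm z ∈ tsupport (ψ i)
    · have := hle i hit _ h1
      rw [(A.e i).right_inv hz] at this
      exact mul_le_mul_of_nonneg_left this (P.nn _ _)
    · rw [image_eq_zero_of_notMem_tsupport h1, zero_mul, zero_mul]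
  · simp only [rd_of_not hz, zero_mul, le_refl]

end dens

/-! ### the measure `nu` -/

/-- the forms of `nu` -/
def nH (p : ℕ) (H : KP A) : Fin n → KP A := sl (p := p) (fun _ => zr A) H

/-- the potentials of `nu` -/
def nF (n : ℕ) (π : M → Cn p) : Fin n → M → ℝ := sl (fun k x => nq k (π x)) fun _ => 0

/-- `dd^c|π_1|² ∧ … ∧ dd^c|π_p|² ∧ ω^{n-p}` -/
def nu (H : KP A) (T : Set M) (π : M → Cn p) : Measure M := MX T (nH p H) (nF n π)

/-- the Jacobian of `π` in the chart `i` -/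
def Jc (A : Atl n M) (π : M → Cn p) (i : A.ι) (z : Cn n) : Matrix (Fin p) (Fin n) ℂ :=
  mt (fderiv ℂ (fun z => π ((A.e i).symm z)) z)

variable {H : KP A} {T : Set M} {π : M → Cn p} {f g : Cn p → ℝ}

namespace TB

theorem hess_pot (h : TB A T π) (G : KP A) (hf : ContDiff ℝ ∞ f) (i : A.ι) {z : Cn n}
    (hz : z ∈ chU A T i) : hess (pot G (fun x => f (π x)) i) z =
      hess (G.wt i) z + pb (Jc A π i z) (hess f (π ((A.e i).symm z))) := by
  rw [show pot G (fun x => f (π x)) i = fun z => G.wt i z + inC A i (fun x => f (π x)) z from rfl,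
    hess_add (wt_contDiffAt G i hz.1) (h.sm hf i hz)]
  congr 1
  exact hess_pull (h.an i hz) hf.contDiffAt

theorem hess_pot0 (h : TB A T π) (hf : ContDiff ℝ ∞ f) (i : A.ι) {z : Cn n}
    (hz : z ∈ chU A T i) : hess (pot (zr A) (fun x => f (π x)) i) z =
      pb (Jc A π i z) (hess f (π ((A.e i).symm z))) := by
  rw [h.hess_pot _ hf i hz, show (zr A).wt i = fun _ => 0 from rfl, hess_zero_fun, zero_add]

theorem sq_nu (h : TB A T π) (hH : H.Semipos) : SQ T (nH p H) (nF n π) :=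
  ⟨fun k => sl_prop₂ (P := fun G a => QP G T a) (fun j => h.qp0 (sp_nq j))
    (QP.const hH h.op 0) k, fun k i z hz =>
      sl_prop (P := fun a => ContDiffAt ℝ ∞ (inC A i a) z) (fun j => h.sm (nq_smooth j) i hz)
        contDiffAt_const k⟩

theorem hess_nu (h : TB A T π) (H : KP A) (i : A.ι) {z : Cn n} (hz : z ∈ chU A T i) :
    (fun k => hess (pot (nH p H k) (nF n π k) i) z) = sl (rk (Jc A π i z)) (hess (H.wt i) z) := by
  funext k
  rw [nH, nF, sl_map₂ fun (G : KP A) (a : M → ℝ) => hess (pot G a i) z]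
  congr 1
  · funext j
    rw [h.hess_pot0 (nq_smooth j) i hz, pb_nq]
  · congr 1
    exact funext fun w => add_zero _

theorem dn_nu (h : TB A T π) (H : KP A) (i : A.ι) {z : Cn n} (hz : z ∈ chU A T i) :
    dn (nH p H) (nF n π) i z = c0 (Jc A π i z) (hess (H.wt i) z) := by
  rw [dn, mh, h.hess_nu H i hz, c0]

theorem sq_slot (h : TB A T π) (hH : H.Semipos) (hf : Sp univ f) (k : Fin n) :
    SQ T (update (nH p H) k (zr A)) (update (nF n π) k fun x => f (π x)) :=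
  ⟨qp_upd (h.sq_nu hH).qp k (h.qp0 hf), fun l i z hz => by
    rcases eq_or_ne l k with rfl | hl
    · rw [update_self]; exact h.sm hf.1 i hz
    · rw [update_of_ne hl]; exact (h.sq_nu hH).sm l i z hz⟩

theorem dn_slot (h : TB A T π) (hpn : p ≤ n) (H : KP A) (hf : ContDiff ℝ ∞ f) (k : Fin p) (i : A.ι)
    {z : Cn n} (hz : z ∈ chU A T i) :
    dn (update (nH p H) (Fin.castLE hpn k) (zr A))
      (update (nF n π) (Fin.castLE hpn k) fun x => f (π x)) i z =
      lap k f (π ((A.e i).symm z)) * dn (nH p H) (nF n π) i z := by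
  rw [h.dn_nu H i hz, dn, pot_upd, mh_update, h.hess_nu H i hz, h.hess_pot0 hf i hz, md_slot,
    hess_kk hf, re_ofReal_mul, c0]

theorem sq_ma (h : TB A T π) (hH : H.Semipos) (hf : Sp univ f) :
    SQ T (fun _ => H) fun _ x => f (π x) := ⟨fun _ => h.qp hH hf, fun _ i _ hz => h.sm hf.1 i hz⟩

theorem dn_ma (h : TB A T π) (H : KP A) (hf : ContDiff ℝ ∞ f) (i : A.ι) {z : Cn n}
    (hz : z ∈ chU A T i) : dn (fun _ => H) (fun _ x => f (π x)) i z =
      (md fun _ => hess (H.wt i) z + pb (Jc A π i z) (hess f (π ((A.e i).symm z)))).re := by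
  rw [dn, mh, h.hess_pot H hf i hz]

theorem dn_pos (h : TB A T π) (hH : H.Pos) (hp : 1 ≤ p) (hpn : p ≤ n) (i : A.ι) {z : Cn n}
    (hz : z ∈ chU A T i) : 0 < dn (nH p H) (nF n π) i z := by
  rw [h.dn_nu H i hz]
  refine c0_pos hp hpn (fun v => ?_) (posDef_hess (wt_contDiffAt H i hz.1) (hH i z hz.1))
  have hx : (A.e i).symm z ∈ T := hz.2
  have h1 := surj_of_not_crit (A := A) (y := π) hx (by rw [h.subm]; exact notMem_empty _)
    ((A.e i).map_target hz.1)
  rw [(A.e i).right_inv hz.1] at h1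
  obtain ⟨u, hu⟩ := h1 (WithLp.toLp 2 v)
  refine ⟨fun a => u a, funext fun b => ?_⟩
  have h2 := mt_apply (fderiv ℂ (fun z => π ((A.e i).symm z)) z) u b
  rw [hu] at h2
  exact h2.symm

theorem lift_off {r : ℝ} (h0 : ∀ w, r < ‖w‖ → g w = 0) (x : M)
    (hx : x ∉ {y | y ∈ T ∧ ‖π y‖ ≤ r}) : lift T π g x = 0 := by
  by_cases h1 : x ∈ T
  · rw [lift_of_mem h1, h0 _ (not_le.1 fun h2 => hx ⟨h1, h2⟩)]
  · exact lift_of_not h1

/-- comparison of densities for lifted test functions -/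
theorem lift_le (h : TB A T π) {G G' : Fin n → KP A} {φ φ' : Fin n → M → ℝ} (s : SQ T G φ)
    (s' : SQ T G' φ') {r : ℝ} (hr : r < 1) {t : Finset A.ι} {ψ : A.ι → M → ℝ}
    (P : Pt A T {y | y ∈ T ∧ ‖π y‖ ≤ r} t ψ) {g' : Cn p → ℝ} (hg : Continuous g)
    (hg' : Continuous g') (h0 : ∀ w, r < ‖w‖ → g w = 0) (h0' : ∀ w, r < ‖w‖ → g' w = 0)
    (hle : ∀ i ∈ t, ∀ z ∈ A.e i '' tsupport (ψ i), z ∈ chU A T i →
      g (π ((A.e i).symm z)) * dn G φ i z ≤ g' (π ((A.e i).symm z)) * dn G' φ' i z) :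
    ∫ x, lift T π g x ∂MX T G φ ≤ ∫ x, lift T π g' x ∂MX T G' φ' :=
  int_le_of_dn s s' h.op P (h.tst_lift' hg hr h0) (lift_off h0) (h.tst_lift' hg' hr h0')
    (lift_off h0') fun i hi x hx => by
      have h1 := (P.tst i).sub hx
      have h2 := hle i hi _ (mem_image_of_mem _ hx) (mem_chU h1.2 h1.1)
      rwa [(A.e i).left_inv h1.2, ← lift_of_mem (π := π) (g := g) h1.1,
        ← lift_of_mem (π := π) (g := g') h1.1] at h2

theorem exists_P (h : TB A T π) {r : ℝ} (hr : r < 1) :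
    ∃ t ψ, Pt A T {y | y ∈ T ∧ ‖π y‖ ≤ r} t ψ :=
  exists_pt A (h.prop r hr) h.op fun _ hx => hx.1

theorem slot_int (h : TB A T π) (hpn : p ≤ n) (hH : H.Semipos) (hf : Sp univ f) (k : Fin p)
    (hg : Continuous g) {r : ℝ} (hr : r < 1) (h0 : ∀ w, r < ‖w‖ → g w = 0) :
    ∫ x, lift T π g x ∂MX T (update (nH p H) (Fin.castLE hpn k) (zr A))
      (update (nF n π) (Fin.castLE hpn k) fun x => f (π x)) =
      ∫ x, lift T π (fun w => g w * lap k f w) x ∂nu H T π := by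
  obtain ⟨t, ψ, P⟩ := h.exists_P hr
  have hg' := hg.mul (lap_cont hf.1 k)
  have h0' : ∀ w, r < ‖w‖ → g w * lap k f w = 0 := fun w hw => by rw [h0 w hw, zero_mul]
  exact le_antisymm
    (h.lift_le (h.sq_slot hH hf _) (h.sq_nu hH) hr P hg hg' h0 h0' fun i _ z _ hz => by
      rw [h.dn_slot hpn H hf.1 k i hz, mul_assoc])
    (h.lift_le (h.sq_nu hH) (h.sq_slot hH hf _) hr P hg' hg h0' h0 fun i _ z _ hz => by
      rw [h.dn_slot hpn H hf.1 k i hz, mul_assoc])

theorem int_lift {m : Measure M} (hm : m Tᶜ = 0) (g : Cn p → ℝ) :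
    ∫ x, lift T π g x ∂m = ∫ x, g (π x) ∂m :=
  integral_congr_ae ((show ∀ᵐ x ∂m, x ∈ T from hm).mono fun _ hx => lift_of_mem hx)

theorem aem (h : TB A T π) {m : Measure M} (hm : m Tᶜ = 0) : AEMeasurable π m := by
  rw [← Measure.restrict_eq_self_of_ae_mem (μ := m) (s := T) hm]
  exact h.cont.aemeasurable h.op.measurableSet

theorem int_map (h : TB A T π) {m : Measure M} (hm : m Tᶜ = 0) (hg : Continuous g) :
    ∫ w, g w ∂m.map π = ∫ x, lift T π g x ∂m := by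
  rw [integral_map (h.aem hm) hg.aestronglyMeasurable, int_lift hm]

theorem rad_map (h : TB A T π) {m : Measure M} (hm : Rad T m) : Rad (ball 0 1) (m.map π) := by
  refine ⟨?_, fun K hK hKO => ?_⟩
  · rw [Measure.map_apply_of_aemeasurable (h.aem hm.off) isOpen_ball.measurableSet.compl]
    exact measure_mono_null (fun x hx h1 => hx (mem_ball_zero_iff.2 (h.lt_one h1))) hm.off
  · obtain ⟨r, h1, h2⟩ := exists_rad hK.isClosed hKO
    rw [Measure.map_apply_of_aemeasurable (h.aem hm.off) hK.measurableSet,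
      ← measure_inter_conull hm.off]
    have e : π ⁻¹' K ∩ T = {x | x ∈ T ∧ π x ∈ K} := Set.ext fun x => and_comm
    rw [e]
    exact hm.fin _ (h.cpt_pre hK.isClosed h1 h2) fun x hx => hx.1

theorem rad_nu (h : TB A T π) (hH : H.Semipos) : Rad T (nu H T π) := MX_rad h.op (h.sq_nu hH).qp

/-- Stokes on the tube -/
theorem stokes (h : TB A T π) (hpn : p ≤ n) (hH : H.Semipos) (k : Fin p) {φ ψ : Cn p → ℝ}
    (hφ : ContDiff ℝ ∞ φ) (tφ : Tst (ball 0 1) φ) (hψ : Sp univ ψ) (h0 : ∀ w, lap k ψ w = 0) :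
    ∫ w, ψ w * lap k φ w ∂(nu H T π).map π = 0 := by
  obtain ⟨c, hc, ha⟩ := exists_dp hφ tφ.cpt
  have hb := sp_nsq (n := p) hc
  have hz : Sp univ fun _ : Cn p => (0 : ℝ) := by simpa using sp_nsq (n := p) le_rfl
  obtain ⟨η, sη, tη, h1, -, -⟩ := exists_cut tφ.cpt isOpen_ball tφ.sub
  obtain ⟨r, hr, h2⟩ := exists_rad (isClosed_tsupport η) tη.sub
  have hη : ∀ w, r < ‖w‖ → η w = 0 := fun w hw =>
    image_eq_zero_of_notMem_tsupport fun h3 => (h2 w h3).not_gt hw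
  have h3 : ∀ w ∈ tsupport φ, η w = 1 := h1.self_of_nhdsSet
  have h4 : ∀ w ∈ tsupport φ, ‖w‖ ≤ r := fun w hw => not_lt.1 fun h5 => by
    have := h3 w hw; rw [hη w h5] at this; exact zero_ne_one this
  have hφ0 : ∀ w, r < ‖w‖ → φ w = 0 := fun w hw =>
    image_eq_zero_of_notMem_tsupport fun h5 => (h4 w h5).not_gt hw
  have hK := h.cpt_pre (isClosed_tsupport φ) hr h4
  have e : ∀ x ∈ T, x ∉ {x | x ∈ T ∧ π x ∈ tsupport φ} →
      φ (π x) + c * ‖π x‖ ^ 2 = c * ‖π x‖ ^ 2 := fun x hx hx' => by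
    rw [image_eq_zero_of_notMem_tsupport fun h5 => hx' ⟨hx, h5⟩, zero_add]
  have s := (h.sq_nu hH).qp
  have key := MX_stokes_on' h.op s (Fin.castLE hpn k) (h.qp0 ha) (h.qp0 hb) hK
    (fun x hx => hx.1) e (h.qp0 hψ) (h.qp0 hz)
  have hg : Continuous fun w => η w * ψ w := tη.cont.mul hψ.1.continuous
  have hg0 : ∀ w, r < ‖w‖ → η w * ψ w = 0 := fun w hw => by rw [hη w hw, zero_mul]
  rw [← dI_set h.op s _ (h.qp0 ha) (h.qp0 hb) hK.isClosed 0
    (fun x hx hx' => by rw [e x hx hx', add_zero]) (h.tst_lift' hg hr hg0)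
    (fun x hx => by rw [lift_of_mem hx.1, h3 _ hx.2, one_mul, sub_zero]), dI,
    h.slot_int hpn hH ha k hg hr hg0, h.slot_int hpn hH hb k hg hr hg0] at key
  simp only [add_sub_cancel_right] at key
  rw [← int_lift (MX_compl h.op (h.sq_slot hH hψ _).qp),
    ← int_lift (MX_compl h.op (h.sq_slot hH hz _).qp), h.slot_int hpn hH hψ k tφ.cont hr hφ0,
    h.slot_int hpn hH hz k tφ.cont hr hφ0] at key
  have ν := h.rad_nu hH
  have t1 : ∀ {u : Cn p → ℝ}, ContDiff ℝ ∞ u → Tst (ball 0 1) fun w => η w * ψ w * lap k u w :=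
    fun hu => (tη.mul_on isOpen_ball hψ.1.continuous.continuousOn).mul_on isOpen_ball
      (lap_cont hu k).continuousOn
  rw [← h.int_map ν.off (t1 ha.1).cont, ← h.int_map ν.off (t1 hb.1).cont,
    ← integral_sub ((h.rad_map ν).int (t1 ha.1)) ((h.rad_map ν).int (t1 hb.1)),
    int_lift ν.off, int_lift ν.off] at key
  have l0 : ∀ w, lap k (fun _ : Cn p => (0 : ℝ)) w = 0 := fun w => lvE_const 0 w _
  simp only [h0, l0, mul_zero, integral_zero, sub_self] at key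
  refine Eq.trans (integral_congr_ae (Eventually.of_forall fun w => ?_)) key.symm
  have la : lap k (fun z => φ z + c * ‖z‖ ^ 2) w = lap k φ w + lap k (fun z => c * ‖z‖ ^ 2) w :=
    lvE_add hφ.contDiffAt hb.1.contDiffAt _
  simp only [la]
  by_cases hw : w ∈ tsupport φ
  · rw [h3 w hw]; ring
  · rw [lap_zero k hw]; ring

theorem int_fderiv (h : TB A T π) (hpn : p ≤ n) (hH : H.Semipos) {φ : Cn p → ℝ}
    (hφ : ContDiff ℝ ∞ φ) (tφ : Tst (ball 0 1) φ) (v : Cn p) :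
    ∫ w, fderiv ℝ φ w v ∂(nu H T π).map π = 0 := by
  have μ := h.rad_map (h.rad_nu hH)
  have tD : ∀ u, Tst (ball 0 1) fun w => fderiv ℝ φ w u := fun u =>
    Tst.of_cpt ((hφ.continuous_fderiv (by simp)).clm_apply continuous_const) tφ.cpt tφ.sub
      fun w hw => by rw [fderiv_of_notMem_tsupport ℝ hw]; rfl
  have one : Sp univ fun _ : Cn p => (1 : ℝ) :=
    ⟨contDiff_const, fun w _ => by rw [hess_cst]; exact Matrix.PosSemidef.zero⟩
  have key : ∀ (k : Fin p) (l : Cn p →L[ℝ] ℝ),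
      l (EuclideanSpace.single k 1) *
        ∫ w, fderiv ℝ φ w (EuclideanSpace.single k 1) ∂(nu H T π).map π +
      l (I • EuclideanSpace.single k 1) *
        ∫ w, fderiv ℝ φ w (I • EuclideanSpace.single k 1) ∂(nu H T π).map π = 0 := by
    intro k l
    have h1 := h.stokes hpn hH k hφ tφ (sp_lin l) fun w => lvE_lin l w _
    have h2 := h.stokes hpn hH k (φ := fun w => l w * φ w) (l.contDiff.mul hφ)
      (by simpa only [mul_comm] using tφ.mul_on isOpen_ball l.continuous.continuousOn) one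
      fun w => lvE_const 1 w _
    have t1 : Tst (ball 0 1) fun w => l w * lap k φ w :=
      Tst.of_cpt (l.continuous.mul (lap_cont hφ k)) tφ.cpt tφ.sub
        fun w hw => by rw [lap_zero k hw, mul_zero]
    have i1 := (μ.int (tD (EuclideanSpace.single k 1))).const_mul (l (EuclideanSpace.single k 1))
    have i2 := (μ.int (tD (I • EuclideanSpace.single k 1))).const_mul
      (l (I • EuclideanSpace.single k 1))
    have i3 : Integrable (fun w => (l (EuclideanSpace.single k 1) *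
        fderiv ℝ φ w (EuclideanSpace.single k 1) + l (I • EuclideanSpace.single k 1) *
        fderiv ℝ φ w (I • EuclideanSpace.single k 1)) / 2) ((nu H T π).map π) :=
      (i1.add i2).div_const 2
    have e3 : ∀ w, 1 * lap k (fun w => l w * φ w) w = l w * lap k φ w +
        (l (EuclideanSpace.single k 1) * fderiv ℝ φ w (EuclideanSpace.single k 1) +
        l (I • EuclideanSpace.single k 1) * fderiv ℝ φ w (I • EuclideanSpace.single k 1)) / 2 :=
      fun w => by rw [one_mul]; exact lvE_lin_mul l hφ w _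
    simp only [e3] at h2
    rw [integral_add (μ.int t1) i3, integral_div, integral_add i1 i2,
      integral_const_mul, integral_const_mul] at h2
    linarith
  have k1 : ∀ k : Fin p,
      ∫ w, fderiv ℝ φ w (EuclideanSpace.single k 1) ∂(nu H T π).map π = 0 := fun k => by
    simpa using key k (reCLM.comp ((EuclideanSpace.proj k : Cn p →L[ℂ] ℂ).restrictScalars ℝ))
  have k2 : ∀ k : Fin p,
      ∫ w, fderiv ℝ φ w (I • EuclideanSpace.single k 1) ∂(nu H T π).map π = 0 := fun k => by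
    simpa using key k (imCLM.comp ((EuclideanSpace.proj k : Cn p →L[ℂ] ℂ).restrictScalars ℝ))
  have e : v = ∑ k, ((v k).re • (EuclideanSpace.single k 1 : Cn p) +
      (v k).im • (I • EuclideanSpace.single k 1 : Cn p)) := by
    ext a
    simp [Finset.sum_apply, Pi.single_apply, Finset.sum_add_distrib]
  have e2 : ∀ w, fderiv ℝ φ w v = ∑ k, ((v k).re * fderiv ℝ φ w (EuclideanSpace.single k 1) +
      (v k).im * fderiv ℝ φ w (I • EuclideanSpace.single k 1)) := fun w => by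
    conv_lhs => rw [e]
    simp only [map_sum, map_add, map_smul, smul_eq_mul]
  simp only [e2]
  have i4 : ∀ k : Fin p, Integrable (fun w => (v k).re * fderiv ℝ φ w (EuclideanSpace.single k 1) +
      (v k).im * fderiv ℝ φ w (I • EuclideanSpace.single k 1)) ((nu H T π).map π) := fun k =>
    ((μ.int (tD _)).const_mul _).add ((μ.int (tD _)).const_mul _)
  rw [integral_finsetSum _ fun k _ => i4 k]
  refine Finset.sum_eq_zero fun k _ => ?_
  rw [integral_add ((μ.int (tD _)).const_mul _) ((μ.int (tD _)).const_mul _), integral_const_mul,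
    integral_const_mul, k1, k2]
  ring

/-- **the fibre volume is constant** -/
theorem exists_push (h : TB A T π) (hpn : p ≤ n) (hH : H.Semipos) : ∃ V : ℝ, 0 ≤ V ∧
    ∀ g : Cn p → ℝ, Continuous g → ∀ r < (1 : ℝ), (∀ w, r < ‖w‖ → g w = 0) →
      ∫ x, lift T π g x ∂nu H T π = V * ∫ w, g w := by
  obtain ⟨V, h1, h2⟩ := exists_haar isOpen_ball (convex_ball 0 1) (h.rad_map (h.rad_nu hH))
    fun φ hφ tφ v => h.int_fderiv hpn hH hφ tφ v
  refine ⟨V, h1, fun g hg r hr h0 => ?_⟩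
  rw [← h.int_map (h.rad_nu hH).off hg]
  exact h2 g (Tst.of_cpt hg (isCompact_closedBall 0 r) (closedBall_subset_ball hr)
    fun w hw => h0 w (by rwa [mem_closedBall_zero_iff, not_le] at hw))

theorem nu_pos (h : TB A T π) (hH : H.Pos) (hp : 1 ≤ p) (hpn : p ≤ n) :
    0 < ∫ x, lift T π (fun w => max (1 / 2 - ‖w‖) 0) x ∂nu H T π := by
  have hr : (1 / 2 : ℝ) < 1 := by norm_num
  obtain ⟨t, ψ, P⟩ := h.exists_P hr
  have hg : Continuous fun w : Cn p => max (1 / 2 - ‖w‖) (0 : ℝ) := by fun_prop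
  have h0 : ∀ w : Cn p, 1 / 2 < ‖w‖ → max (1 / 2 - ‖w‖) (0 : ℝ) = 0 := fun w hw =>
    max_eq_right (by linarith)
  have s := h.sq_nu (pos_semi hH)
  have tg := h.tst_lift' hg hr h0
  have hn := lift_nonneg (T := T) (π := π) (g := fun w => max (1 / 2 - ‖w‖) 0)
    fun w => le_max_right _ _
  rw [nu, s.int h.op P tg (lift_off h0)]
  have hnn : ∀ i z, 0 ≤ BT.rd A i (fun x => ψ i x * lift T π (fun w => max (1 / 2 - ‖w‖) 0) x) z *
      dn (nH p H) (nF n π) i z := fun i z => by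
    by_cases hz : z ∈ (A.e i).target
    · rw [rd_of_mem hz]
      by_cases h1 : (A.e i).symm z ∈ T
      · exact mul_nonneg (mul_nonneg (P.nn _ _) (hn _)) (h.dn_pos hH hp hpn i ⟨hz, h1⟩).le
      · rw [lift_of_not h1, mul_zero, zero_mul]
    · rw [rd_of_not hz, zero_mul]
  obtain ⟨x, hx, hx0⟩ := h.surj (w := 0) (by simp)
  have h1 := P.one x ⟨hx, by rw [hx0]; simp⟩
  obtain ⟨i, hi, h2⟩ := Finset.exists_ne_zero_of_sum_ne_zero (h1.trans_ne one_ne_zero)
  have h3 := (P.tst i).sub (subset_tsupport _ h2)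
  refine Finset.sum_pos' (fun i _ => integral_nonneg (hnn i)) ⟨i, hi, ?_⟩
  have h4 := ((P.tst i).mul_on (h.op.inter (A.e i).open_source) tg.cont.continuousOn).rd.mul_on
    (isOpen_chU h.op i) (s.cont_dn i)
  refine h4.cont.integral_pos_of_hasCompactSupport_nonneg_nonzero h4.cpt (hnn i)
    (x := A.e i x) ?_
  rw [rd_of_mem ((A.e i).map_source h3.2), (A.e i).left_inv h3.2, lift_of_mem hx, hx0]
  exact mul_ne_zero (mul_ne_zero h2 (by norm_num)) (h.dn_pos hH hp hpn i (mem_chU h3.2 h3.1)).ne'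

theorem exists_ratio (h : TB A T π) (hH : H.Pos) (hp : 1 ≤ p) (hpn : p ≤ n) {K : Set M}
    {t : Finset A.ι} {ψ : A.ι → M → ℝ} (P : Pt A T K t ψ) : ∃ C : ℝ, 0 ≤ C ∧ ∀ i ∈ t,
      ∀ z ∈ A.e i '' tsupport (ψ i), (md fun _ => hess (H.wt i) z + pb (Jc A π i z) 1).re ≤
        C * c0 (Jc A π i z) (hess (H.wt i) z) := by
  have h1 : Sp univ fun w : Cn p => ‖w‖ ^ 2 := by simpa using sp_nsq (n := p) zero_le_one
  have key : ∀ i, ∃ C : ℝ, 0 ≤ C ∧ ∀ z ∈ A.e i '' tsupport (ψ i),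
      (md fun _ => hess (H.wt i) z + pb (Jc A π i z) 1).re ≤
        C * c0 (Jc A π i z) (hess (H.wt i) z) := fun i => by
    have hs := img_sub (P.tst i).sub
    have hc := cpt_img (P.tst i).cpt fun x hx => ((P.tst i).sub hx).2
    obtain ⟨C, hC⟩ := hc.bddAbove_image ((((h.sq_ma (pos_semi hH) h1).cont_dn i).div
      ((h.sq_nu (pos_semi hH)).cont_dn i) fun z hz => (h.dn_pos hH hp hpn i hz).ne').mono hs)
    refine ⟨max C 0, le_max_right _ _, fun z hz => ?_⟩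
    have h2 := (hC (mem_image_of_mem _ hz)).trans (le_max_left C 0)
    rwa [Pi.div_apply, div_le_iff₀ (h.dn_pos hH hp hpn i (hs hz)), h.dn_ma H h1.1 i (hs hz),
      h.dn_nu H i (hs hz), hess_nsq] at h2
  choose C h2 h3 using key
  refine ⟨∑ i ∈ t, C i, Finset.sum_nonneg fun i _ => h2 i, fun i hi z hz => (h3 i z hz).trans ?_⟩
  have hz' := img_sub (P.tst i).sub hz
  exact mul_le_mul_of_nonneg_right (Finset.single_le_sum (fun j _ => h2 j) hi)
    (h.dn_nu H i hz' ▸ (h.dn_pos hH hp hpn i hz').le)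

/-- **the Monge-Ampere measure of a pulled back function** -/
theorem exists_vol (h : TB A T π) (hH : H.Pos) (hp : 1 ≤ p) (hpn : p ≤ n) :
    ∃ V : ℝ, 0 < V ∧ Vol H T π V := by
  have hS := pos_semi hH
  obtain ⟨V, hV, hpush⟩ := h.exists_push hpn hS
  have hV0 : 0 < V := lt_of_le_of_ne hV fun h0 => by
    have := h.nu_pos hH hp hpn
    rw [hpush _ (by fun_prop) (1 / 2) (by norm_num) fun w hw => max_eq_right (by linarith), ← h0,
      zero_mul] at this
    exact this.false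
  have hb : (0 : ℝ) < bb n p := Nat.cast_pos.2 (bb_pos hpn)
  have hf0 : (0 : ℝ) < p.factorial := Nat.cast_pos.2 p.factorial_pos
  refine ⟨V * (bb n p / p.factorial), by positivity, fun ρ hρ => ?_⟩
  obtain ⟨t, ψ, P⟩ := h.exists_P hρ
  obtain ⟨C, hC, hr⟩ := h.exists_ratio hH hp hpn P
  refine ⟨V * ((p + 1) ^ n * C), by positivity,
    fun U W u f g Λ hu hW hWU he hf hΛ hΛ0 hl hg hg0 h0 hs => ?_⟩
  have s := h.sq_ma hS hf
  have e1 : ∫ x, lift T π g x ∂MAo H U u =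
      ∫ x, lift T π g x ∂MX T (fun _ => H) fun _ x => f (π x) := by
    have hz : ∀ x ∉ W, lift T π g x = 0 := fun x hx => by
      by_cases h1 : x ∈ T
      · rw [lift_of_mem h1, image_eq_zero_of_notMem_tsupport fun h2 => hx (hs x h1 h2)]
      · exact lift_of_not h1
    rw [← setIntegral_eq_integral_of_forall_compl_eq_zero hz,
      ← setIntegral_eq_integral_of_forall_compl_eq_zero (μ := MX T _ _) hz, MAo,
      MX_restrict_eq hu.op (fun _ => hu) h.op s.qp hW (fun x hx => (hWU hx).1)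
        (fun x hx => (hWU hx).2) (fun _ => 0) fun _ x hx => by rw [he x hx, add_zero]]
  have cm : Continuous (mh fun _ => f) := continuous_iff_continuousAt.2 fun w =>
    (contDiffAt_mh fun _ => hf.1.contDiffAt).continuousAt
  have key : ∀ i ∈ t, ∀ z ∈ A.e i '' tsupport (ψ i), z ∈ chU A T i →
      bb n p / p.factorial * mh (fun _ => f) (π ((A.e i).symm z)) * dn (nH p H) (nF n π) i z ≤
        dn (fun _ => H) (fun _ x => f (π x)) i z ∧ dn (fun _ => H) (fun _ x => f (π x)) i z ≤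
      (bb n p / p.factorial * mh (fun _ => f) (π ((A.e i).symm z)) + (p + 1) ^ n * C *
        (1 + Λ (π ((A.e i).symm z))) ^ (p - 1)) * dn (nH p H) (nF n π) i z := by
    intro i hi z hz hz'
    have h1 := rk_bound hpn (Jc A π i z)
      (posDef_hess (wt_contDiffAt H i hz'.1) (hH i z hz'.1)).posSemidef
      (hf.2 (π ((A.e i).symm z)) (mem_univ _)) (hΛ0 _) (psd_of_lvE_le hf.1 (hl _))
    have h2 := mul_le_mul_of_nonneg_left (mul_le_mul_of_nonneg_left (hr i hi z hz)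
      (pow_nonneg (add_nonneg zero_le_one (hΛ0 (π ((A.e i).symm z)))) (p - 1)))
      (pow_nonneg (by positivity : (0 : ℝ) ≤ p + 1) n)
    rw [h.dn_ma H hf.1 i hz', h.dn_nu H i hz', mh_same, ← mul_assoc, div_mul_cancel₀ _ hf0.ne']
    exact ⟨h1.1, by linarith [h1.2]⟩
  have c1 : Continuous fun w => g w * (bb n p / p.factorial * mh (fun _ => f) w) := by fun_prop
  have c2 : Continuous fun w => g w * (bb n p / p.factorial * mh (fun _ => f) w +
      (p + 1) ^ n * C * (1 + Λ w) ^ (p - 1)) := by fun_prop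
  have z1 : ∀ (k : Cn p → ℝ) w, ρ < ‖w‖ → g w * k w = 0 := fun k w hw => by
    rw [h0 w hw, zero_mul]
  have i1 : ∀ {k : Cn p → ℝ}, Continuous k → Integrable fun w => g w * k w := fun hk =>
    (hg.mul hk).integrable_of_hasCompactSupport (HasCompactSupport.intro (isCompact_closedBall 0 ρ)
      fun w hw => z1 _ w (by rwa [mem_closedBall_zero_iff, not_le] at hw))
  have l1 := h.lift_le (h.sq_nu hS) s hρ P c1 hg (z1 _) h0 fun i hi z hz hz' => by
    rw [mul_assoc]; exact mul_le_mul_of_nonneg_left (key i hi z hz hz').1 (hg0 _)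
  have l2 := h.lift_le s (h.sq_nu hS) hρ P hg c2 h0 (z1 _) fun i hi z hz hz' => by
    rw [mul_assoc]; exact mul_le_mul_of_nonneg_left (key i hi z hz hz').2 (hg0 _)
  rw [← nu, hpush _ c1 ρ hρ (z1 _)] at l1
  rw [← nu, hpush _ c2 ρ hρ (z1 _)] at l2
  simp only [mul_add, mul_left_comm (g _) (_ / _ : ℝ), mul_left_comm (g _) (_ ^ n * C)] at l1 l2
  rw [integral_add ((i1 cm).const_mul _) ((i1 (by fun_prop)).const_mul _), integral_const_mul,
    integral_const_mul] at l2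
  rw [integral_const_mul] at l1
  rw [e1]
  constructor <;> linarith

end TB

end

end Crest.Agent.X261.Pole2
end

-- ▼ part X261/Pole/AsyI

/-!
# Row 261, package POLE (helper59), file `AsyI`: the field `asy` with ONE constant
-/

set_option autoImplicit false
set_option linter.unusedSectionVars false

open Set Filter Topology

namespace Crest.Agent.X261.Pole

open Crest.Agent.R275.Geo Crest.Agent.X261.Top Crest.Agent.X261.Pole2 Crest.Agent.X261.BT
open Crest.Agent.R281.Kp_487 (KP)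

noncomputable section

variable {n p : ℕ} {M : Type} [TopologicalSpace M] {A : Atl n M}

/-- the constraints `F` are squeezed between round constraints of the tube: (F2), (F3) -/
def F23 (H : KP A) (T : Set M) (π : M → Cn p) (y : Cn p) (F : ℝ → ℝ → Set (M → ℝ)) : Prop :=
  ∃ C₀ r₀ s₁ : ℝ, 0 < r₀ ∧
    (∀ s ≥ s₁, ∀ h ≥ 0, ∀ f : M → ℝ,
      (∀ x ∈ T, ‖π x - y‖ ^ 2 ≤ Real.exp (C₀ - s) → f x ≤ -h - C₀) → f ∈ F s h) ∧
    ∀ s ≥ s₁, ∀ h ≥ 0, ∀ f : M → ℝ, PP H f → (∀ x, f x ≤ 0) → f ∈ F s h →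
      ∀ x ∈ T, ‖π x - y‖ ≤ r₀ → f x ≤ -h + C₀ +
        h / (s - C₀) * Real.log (max (Real.exp (s + C₀) * ‖π x - y‖ ^ 2) 1)

variable [MeasurableSpace M] [BorelSpace M] [Countable A.ι] [T2Space M] {H : KP A}

/-- ASYM at one centre -/
theorem asy_of_F23 (hH : H.Pos) (hS : Slow H) {T : Set M} {π : M → Cn p} {V : ℝ} {y : Cn p}
    (h : TB A T π) (hp : 1 ≤ p) (hV : Vol H T π V) (hy : ∀ c > 0, FIN H T π y c)
    {Y : PF (lsOf hH hS)} (hF : F23 H T π y Y.F) : Y.Asy (V * k1 p) p := by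
  obtain ⟨C₀, r₀, s₁, hr, F2, F3⟩ := hF
  refine PF.asy_of (asym_of hH hS (mul_nonneg (hV.nonneg (pos_semi hH) h hp) (k1_pos hp).le)
    (fun c hc => ?_) Y.F hr F2 F3)
  obtain ⟨W, r, a, s₀, K, hW⟩ := (hy c hc).exists_vf (pos_semi hH) h hp hc.le
  exact ⟨W, r, a, s₀, K, hW, hW.energy hH h hp hV hc.le⟩

/-- the field `asy`, and the link of `k0` with the fibre volume of every tube -/
theorem asy_tube [PreconnectedSpace M] (hH : H.Pos) (hS : Slow H) {G : Type} [Group G]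
    [MulAction G M] (𝒯 : Tube A G p) (hp : 1 ≤ p) (hpn : p ≤ n)
    (hfin : ∀ x₀ ∈ 𝒯.M0, ∀ x ∈ 𝒯.T x₀, x ∉ 𝒯.Bad → ∀ c > 0,
      FIN H (𝒯.T x₀) (𝒯.π x₀) (𝒯.π x₀ x) c)
    {κ : Type*} {O : κ → Set M} {Y : κ → M → PF (lsOf hH hS)} (hcov : ∀ x ∈ 𝒯.M0, ∃ C, x ∈ O C)
    (h : ∀ x₀ ∈ 𝒯.M0, ∀ C, ∀ x ∈ O C, x ∈ 𝒯.T x₀ →
      F23 H (𝒯.T x₀) (𝒯.π x₀) (𝒯.π x₀ x) (Y C x).F) :
    ∃ k, 0 < k ∧ (∀ C, ∀ x ∈ O C, x ∈ 𝒯.M0 → x ∉ 𝒯.Bad → (Y C x).Asy k p) ∧
      ∀ x₀ ∈ 𝒯.M0, ∃ V, 0 ≤ V ∧ Vol H (𝒯.T x₀) (𝒯.π x₀) V ∧ k = V * k1 p := by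
  have key : ∀ x₀ ∈ 𝒯.M0, ∃ V, 0 < V ∧ Vol H (𝒯.T x₀) (𝒯.π x₀) V ∧
      ∀ C, ∀ x ∈ O C, x ∈ 𝒯.T x₀ → x ∉ 𝒯.Bad → (Y C x).Asy (V * k1 p) p := fun x₀ h₀ => by
    obtain ⟨V, V0, hV⟩ := (tb_of_tube 𝒯 h₀).exists_vol hH hp hpn
    exact ⟨V, V0, hV, fun C x h1 h2 h3 => asy_of_F23 hH hS (tb_of_tube 𝒯 h₀) hp hV
      (hfin x₀ h₀ x h2 h3) (h x₀ h₀ C x h1 h2)⟩
  obtain ⟨k, k0, hk⟩ := asy_all 𝒯 hcov fun x₀ h₀ => by
    obtain ⟨V, V0, -, hV⟩ := key x₀ h₀
    exact ⟨_, mul_pos V0 (k1_pos hp), hV⟩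
  refine ⟨k, k0, hk, fun x₀ h₀ => ?_⟩
  obtain ⟨V, V0, hV, hV'⟩ := key x₀ h₀
  obtain ⟨x, h1, h2⟩ := 𝒯.bad_thin.dense_compl.inter_open_nonempty _ (𝒯.T_opn x₀ h₀)
    ⟨x₀, 𝒯.T_mem x₀ h₀⟩
  obtain ⟨C, hC⟩ := hcov x (𝒯.T_sub x₀ h₀ h1)
  exact ⟨V, V0.le, hV, (hk C x hC (𝒯.T_sub x₀ h₀ h1) h2).unique (hV' C x hC h1 h2)⟩

end

end Crest.Agent.X261.Pole
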